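import Vale.Agent.P156.H144.Reg
import Vale.Agent.P156.H167.Bridge
import Vale.Agent.P156.H574.Equi

/-! P156: good sequences and limit laws of scattering matrices (S0)-(S4). -/

open Matrix MeasureTheory Filter Topology
open scoped ComplexConjugate

namespace Vale.Agent.P156.H144

open Vale.Agent.P156

variable {d : ℕ} {𝒰 : Ultrafilter ℕ} {E : ℕ → ℝ} {E₀ : ℝ}

/-- (S0) -/
theorem good_nonempty (hG : GoodSeq d 𝒰 E E₀) (K : ℕ) :
    ∀ᶠ n in (𝒰 : Filter ℕ), (WW n d K).Nonempty := by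
  filter_upwards [hG.even] with n hn
  exact WW_nonempty hn.1 hn.2 K

theorem good_bulk (hG : GoodSeq d 𝒰 E E₀) :
    ∀ᶠ n in (𝒰 : Filter ℕ), |E n| < 2 * Real.sqrt ((d : ℝ) - 1) :=
  hG.lim.abs.eventually (gt_mem_nhds hG.bulk)

/-- (S3) -/
theorem good_im_pos (hG : GoodSeq d 𝒰 E E₀) :
    ∀ᶠ n in (𝒰 : Filter ℕ), 0 < (mE d (E n)).im := by
  filter_upwards [good_bulk hG] with n hn
  exact A.mE_im_pos (by have := hG.three; omega) hn

theorem good_im_pos_lim (hG : GoodSeq d 𝒰 E E₀) : 0 < (mE d E₀).im :=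
  A.mE_im_pos (by have := hG.three; omega) hG.bulk

theorem good_tendsto_mE (hG : GoodSeq d 𝒰 E E₀) :
    Tendsto (fun n => mE d (E n)) (𝒰 : Filter ℕ) (𝓝 (mE d E₀)) := by
  have hc : Continuous (fun E : ℝ => mE d E) := by
    unfold mE
    fun_prop
  exact (hc.tendsto E₀).comp hG.lim

theorem good_ZZ (hZW : SpecZW d) (hG : GoodSeq d 𝒰 E E₀) (K : ℕ) :
    Tendsto (fun n => prob (WW n d K) (fun ω => ω ∉ ZZs n d K)) (𝒰 : Filter ℕ) (𝓝 0) := by
  obtain ⟨C, hC⟩ := hZW K
  have h1 : Tendsto (fun n : ℕ => C / (n : ℝ)) (𝒰 : Filter ℕ) (𝓝 0) :=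
    (tendsto_const_div_atTop_nhds_zero_nat C).mono_left hG.atTop
  refine squeeze_zero' (Eventually.of_forall fun n => Lim.prob_nonneg _ _) ?_ h1
  filter_upwards [hG.even] with n hn
  exact hC n hn.1 hn.2

/-- (S1) -/
theorem oinv_of_specOInv (hO : SpecOInv d) (hG : GoodSeq d 𝒰 E E₀) {K : ℕ} (hK : 2 ≤ K)
    {Λ : Measure (F.SymU (Fin K × Fin d))} [IsProbabilityMeasure Λ]
    (hΛ : Lim.IsLimitLaw (𝒰 : Filter ℕ) (fun n => WW n d K)
      (fun n ω => H167.toSU (SX (E n) ω)) Λ) : F.OInv Λ := by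
  intro U hU
  have hΛ' := H167.isLimitLaw_iff.1 hΛ
  obtain ⟨O, hOdef⟩ : ∃ O : Matrix (Fin K × Fin d) (Fin K × Fin d) ℝ,
      ∀ i j, O i j = (U.1 i j).re := ⟨Matrix.of fun i j => (U.1 i j).re, fun _ _ => rfl⟩
  have hOU : O.map (fun x : ℝ => (x : ℂ)) = U.1 := by
    ext i j
    rw [map_apply, hOdef]
    exact Complex.ext (by simp) (by simp [hU i j])
  have hOo : O ∈ orthogonalGroup (Fin K × Fin d) ℝ := by
    rw [mem_orthogonalGroup_iff]
    have h1 : U.1 * star U.1 = 1 := mem_unitaryGroup_iff.1 U.2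
    ext i j
    have h2 := congrArg Complex.re (congrFun (congrFun h1 i) j)
    rw [Matrix.mul_apply, Complex.re_sum] at h2
    rw [Matrix.mul_apply]
    have h3 : ((1 : Matrix (Fin K × Fin d) (Fin K × Fin d) ℂ) i j).re
        = (1 : Matrix (Fin K × Fin d) (Fin K × Fin d) ℝ) i j := by
      rw [Matrix.one_apply, Matrix.one_apply]
      split_ifs <;> simp
    rw [← h3, ← h2]
    refine Finset.sum_congr rfl fun k _ => ?_
    rw [star_apply]
    rw [transpose_apply, hOdef, hOdef, Complex.mul_re, Complex.star_def, Complex.conj_re,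
      hU i k, zero_mul, sub_zero]
  unfold F.InvBy
  have : IsProbabilityMeasure (Λ.map fun S => U • S) :=
    Measure.isProbabilityMeasure_map (F.measurable_smul U).aemeasurable
  refine ext_of_forall_integral_eq_of_IsFiniteMeasure fun G => ?_
  rw [integral_map (F.measurable_smul U).aemeasurable
    G.continuous.measurable.aestronglyMeasurable]
  let G1 : C(SymU (Fin K × Fin d), ℝ) := ⟨fun S => G (H167.toF S),
    G.continuous.comp H167.continuous_toF⟩
  let G2 : C(SymU (Fin K × Fin d), ℝ) := ⟨fun S => G (U • H167.toF S),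
    G.continuous.comp ((continuous_const_smul U).comp H167.continuous_toF)⟩
  have h1 := hΛ' G1
  have h2 := hΛ' G2
  have h3 := hO 𝒰 E E₀ hG K hK O hOo G1
  have h4 : ∀ S : SymU (Fin K × Fin d),
      G1 (conjSymU (O.map (fun x : ℝ => (x : ℂ))) S) = G2 S := by
    intro S
    change G (H167.toF _) = G (U • H167.toF S)
    congr 1
    apply Subtype.ext
    change (conjSymU (O.map (fun x : ℝ => (x : ℂ))) S).1 = U.1 * S.1 * U.1ᵀ
    unfold conjSymU
    rw [hOU]
    have hmem : U.1 * S.1 * U.1ᵀ ∈ F.symU (Fin K × Fin d) := F.conj_mem_symU U.2 S.2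
    unfold toSymU
    rw [dif_pos (show _ ∧ _ from hmem)]
  simp only [h4] at h3
  have h5 := h1.sub h2
  have h6 := tendsto_nhds_unique h3 h5
  have e1 : ∫ x, G1 (H167.ofF x) ∂Λ = ∫ x, G x ∂Λ := rfl
  have e2 : ∫ x, G2 (H167.ofF x) ∂Λ = ∫ x, G (U • x) ∂Λ := rfl
  rw [e1, e2] at h6
  linarith

/-- lower bound of `|det (1 - S)|` from an upper bound of the entries of `R` -/
theorem det_one_sub_cay_ge {ι : Type*} [Fintype ι] [DecidableEq ι] {m : ℂ} (hm : m.im ≠ 0)
    {R : Matrix ι ι ℂ} (hR : Rᴴ = R) {B M : ℝ} (hB : ∀ a b, ‖R a b‖ ≤ B) (hM : ‖m‖ ≤ M) :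
    (2 * |m.im|) ^ Fintype.card ι ≤
      ‖(1 - cay m R).det‖ * ((Fintype.card ι).factorial * (B + M) ^ Fintype.card ι) := by
  have h1 := A.one_sub_cay hR hm
  have hu := A.unit_conj hR hm
  have h2 : ‖(1 - cay m R).det‖ * ‖(R - (conj m) • (1 : Matrix ι ι ℂ)).det‖
      = (2 * |m.im|) ^ Fintype.card ι := by
    rw [← norm_mul, ← Matrix.det_mul, h1, smul_mul_assoc, Matrix.nonsing_inv_mul _ hu,
      Matrix.det_smul, Matrix.det_one, mul_one, norm_pow]
    congr 1
    have : m - conj m = ((2 * m.im : ℝ) : ℂ) * Complex.I := by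
      apply Complex.ext <;> simp
      ring
    rw [this, norm_mul, Complex.norm_I, mul_one, Complex.norm_real, Real.norm_eq_abs, abs_mul]
    norm_num
  rw [← h2]
  refine mul_le_mul_of_nonneg_left ?_ (norm_nonneg _)
  have h3 := Matrix.det_le (A := R - (conj m) • (1 : Matrix ι ι ℂ))
    (abv := NormedField.toAbsoluteValue ℂ) (x := B + M) (fun i j => by
      change ‖(R - (conj m) • (1 : Matrix ι ι ℂ)) i j‖ ≤ B + M
      rw [Matrix.sub_apply, Matrix.smul_apply, Matrix.one_apply]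
      refine (norm_sub_le _ _).trans (add_le_add (hB i j) ?_)
      split_ifs
      · rw [smul_eq_mul, mul_one, Complex.norm_conj]
        exact hM
      · rw [smul_zero, norm_zero]
        exact (norm_nonneg m).trans hM)
  rw [nsmul_eq_mul] at h3
  exact h3

/-- (S2) -/
theorem limit_isUnit (hG : GoodSeq d 𝒰 E E₀) (K : ℕ)
    {Λ : Measure (F.SymU (Fin K × Fin d))} [IsProbabilityMeasure Λ]
    (hΛ : Lim.IsLimitLaw (𝒰 : Filter ℕ) (fun n => WW n d K)
      (fun n ω => H167.toSU (SX (E n) ω)) Λ) :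
    Λ {S : F.SymU (Fin K × Fin d) | IsUnit (1 - S.1).det}ᶜ = 0 := by
  refine Lim.IsLimitLaw.measure_compl_eq_zero (good_nonempty hG K) hΛ fun ε hε => ?_
  obtain ⟨B, hB⟩ := hG.T3 K ε hε
  set N := Fintype.card (Fin K × Fin d) with hN
  set M : ℝ := ‖mE d E₀‖ + 1 with hM
  set y : ℝ := (mE d E₀).im / 2 with hy
  have hypos : 0 < y := by
    have := good_im_pos_lim hG
    rw [hy]
    linarith
  set B' : ℝ := max B 0 with hB'
  have hD : 0 < (N.factorial : ℝ) * (B' + M) ^ N := by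
    have h1 : 0 < B' + M := by
      have := le_max_right B 0
      have := norm_nonneg (mE d E₀)
      linarith
    have := N.factorial_pos
    positivity
  set c : ℝ := (2 * y) ^ N / ((N.factorial : ℝ) * (B' + M) ^ N) with hc
  have hcpos : 0 < c := by positivity
  refine ⟨{S | c ≤ ‖(1 - S.1).det‖}, ?_, ?_, ?_⟩
  · refine isClosed_le continuous_const ?_
    exact (Continuous.matrix_det (continuous_const.sub continuous_subtype_val)).norm
  · intro S hS
    have h1 : c ≤ ‖(1 - S.1).det‖ := hS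
    change IsUnit (1 - S.1).det
    rw [isUnit_iff_ne_zero]
    intro h0
    rw [h0, norm_zero] at h1
    linarith
  · have hlim := good_tendsto_mE hG
    have hnorm : ∀ᶠ n in (𝒰 : Filter ℕ), ‖mE d (E n)‖ ≤ M := by
      have := hlim.norm.eventually (gt_mem_nhds (show ‖mE d E₀‖ < M by rw [hM]; linarith))
      filter_upwards [this] with n hn
      exact hn.le
    have him : ∀ᶠ n in (𝒰 : Filter ℕ), y ≤ (mE d (E n)).im := by
      have h1 : Tendsto (fun n => (mE d (E n)).im) (𝒰 : Filter ℕ) (𝓝 (mE d E₀).im) :=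
        (Complex.continuous_im.tendsto _).comp hlim
      have := h1.eventually (lt_mem_nhds (show y < (mE d E₀).im by
        have := good_im_pos_lim hG
        rw [hy]; linarith))
      filter_upwards [this] with n hn
      exact hn.le
    filter_upwards [hB, hnorm, him] with n h1 h2 h3
    refine (Lim.prob_mono _ fun ω _ hω => ?_).trans h1
    by_contra hcon
    push Not at hcon
    apply hω
    have hR := A.leadMat_realSymm ω (E n)
    have hm : (mE d (E n)).im ≠ 0 := (lt_of_lt_of_le hypos h3).ne'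
    have h4 := det_one_sub_cay_ge hm hR.1 (B := B') (fun a b => (hcon a b).trans (le_max_left _ _))
      h2
    have h5 : (H167.toSU (SX (E n) ω)).1 = cay (mE d (E n)) (leadMat ω (E n : ℂ)) :=
      H167.coe_toSU (H167.cay_mem_symU hm hR)
    change c ≤ ‖(1 - (H167.toSU (SX (E n) ω)).1).det‖
    rw [h5, hc, div_le_iff₀ hD]
    refine le_trans ?_ h4
    apply pow_le_pow_left₀ (by positivity)
    have := le_abs_self (mE d (E n)).im
    linarith

/-- (S4) -/
theorem isLimitLaw_cay_orth {ι : Type} [Fintype ι] [DecidableEq ι] {L : Filter ℕ} {Ω : ℕ → Type*}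
    {s : ∀ n, Finset (Ω n)} {m : ℕ → ℂ} (hm : ∀ᶠ n in L, (m n).im ≠ 0)
    {R : ∀ n, Ω n → Matrix ι ι ℂ} (hR : ∀ᶠ n in L, ∀ ω ∈ s n, A.RealSymm (R n ω))
    {Λ : Measure (F.SymU ι)}
    (hΛ : Lim.IsLimitLaw L s (fun n ω => H167.toSU (cay (m n) (R n ω))) Λ)
    (U : unitaryGroup ι ℂ) (hU : F.IsReal U) :
    Lim.IsLimitLaw L s (fun n ω => H167.toSU (cay (m n) (U.1 * R n ω * U.1ᵀ)))
      (Λ.map fun S => U • S) := by
  have h := hΛ.map_continuous (continuous_const_smul U)
  intro G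
  refine (h G).congr' ?_
  filter_upwards [hm, hR] with n hn hRn
  unfold avg
  congr 1
  refine Finset.sum_congr rfl fun ω hω => ?_
  change G _ = G _
  congr 1
  have hRω := hRn ω hω
  have hUT : U.1ᵀ = U.1ᴴ := by
    ext i j
    rw [transpose_apply, conjTranspose_apply, Complex.star_def]
    exact (Complex.conj_eq_iff_im.2 (hU j i)).symm
  have h1 := H167.cay_mem_symU hn hRω
  apply Subtype.ext
  change U.1 * (H167.toSU (cay (m n) (R n ω))).1 * U.1ᵀ = _
  rw [H167.coe_toSU h1]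
  have h2 : cay (m n) (U.1 * R n ω * U.1ᵀ) = U.1 * cay (m n) (R n ω) * U.1ᵀ := by
    rw [hUT]
    exact A.cay_conj hRω.1 hn U.2
  rw [h2, H167.coe_toSU (F.conj_mem_symU U.2 h1)]

theorem submatrix_mem {ι κ : Type} [Fintype ι] [DecidableEq ι] [Fintype κ]
    [DecidableEq κ] (e : κ ≃ ι) {M : Matrix ι ι ℂ} (hM : M ∈ F.symU ι) :
    M.submatrix e e ∈ F.symU κ := by
  refine ⟨?_, ?_⟩
  · rw [mem_unitaryGroup_iff, star_eq_conjTranspose, conjTranspose_submatrix,
      submatrix_mul_equiv]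
    have := mem_unitaryGroup_iff.1 hM.1
    rw [star_eq_conjTranspose] at this
    rw [this, submatrix_one_equiv]
  · rw [transpose_submatrix, hM.2]

/-- relabelling -/
def relab {ι κ : Type} [Fintype ι] [DecidableEq ι] [Fintype κ]
    [DecidableEq κ] (e : κ ≃ ι) (S : F.SymU ι) : F.SymU κ := ⟨S.1.submatrix e e, submatrix_mem e S.2⟩

theorem continuous_relab {ι κ : Type} [Fintype ι] [DecidableEq ι] [Fintype κ]
    [DecidableEq κ] (e : κ ≃ ι) : Continuous (relab e) :=
  Continuous.subtype_mk (continuous_subtype_val.matrix_submatrix e e) _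

theorem toSU_submatrix {ι κ : Type} [Fintype ι] [DecidableEq ι] [Fintype κ]
    [DecidableEq κ] (e : κ ≃ ι) {M : Matrix ι ι ℂ} (hM : M ∈ F.symU ι) :
    H167.toSU (M.submatrix e e) = relab e (H167.toSU M) := by
  apply Subtype.ext
  rw [H167.coe_toSU (submatrix_mem e hM)]
  change _ = (H167.toSU M).1.submatrix e e
  rw [H167.coe_toSU hM]

theorem isLimitLaw_cay_submatrix {ι κ : Type} [Fintype ι] [DecidableEq ι] [Fintype κ]
    [DecidableEq κ] (e : κ ≃ ι) {L : Filter ℕ} {Ω : ℕ → Type*}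
    {s : ∀ n, Finset (Ω n)} {m : ℕ → ℂ} (hm : ∀ᶠ n in L, (m n).im ≠ 0)
    {R : ∀ n, Ω n → Matrix ι ι ℂ} (hR : ∀ᶠ n in L, ∀ ω ∈ s n, A.RealSymm (R n ω))
    {Λ : Measure (F.SymU ι)}
    (hΛ : Lim.IsLimitLaw L s (fun n ω => H167.toSU (cay (m n) (R n ω))) Λ) :
    Lim.IsLimitLaw L s (fun n ω => H167.toSU (cay (m n) ((R n ω).submatrix e e)))
      (Λ.map (relab e)) := by
  have h := hΛ.map_continuous (continuous_relab e)
  intro G
  refine (h G).congr' ?_
  filter_upwards [hm, hR] with n hn hRn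
  unfold avg
  congr 1
  refine Finset.sum_congr rfl fun ω hω => ?_
  change G _ = G _
  rw [A.cay_submatrix, toSU_submatrix e (H167.cay_mem_symU hn (hRn ω hω))]

end Vale.Agent.P156.H144
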