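import Vale.Agent.P156.H144.Sand

/-! Existence of the COE functional (push forward of the Haar measure under `U ↦ U Uᵀ`). -/

open Matrix MeasureTheory Filter Topology Finset

namespace Vale.Agent.P156.H144

variable {K : ℕ}

/-- `U ↦ U Uᵀ` -/
noncomputable def uut (U : unitaryGroup (Fin K) ℂ) : SymU (Fin K) :=
  ⟨U.1 * U.1ᵀ, mul_mem U.2 (F.transpose_mem_unitaryGroup U.2), by
    rw [transpose_mul, transpose_transpose]⟩

theorem continuous_uut : Continuous (uut (K := K)) := by
  refine Continuous.subtype_mk ?_ _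
  exact continuous_subtype_val.matrix_mul continuous_subtype_val.matrix_transpose

theorem uut_mul (V U : unitaryGroup (Fin K) ℂ) : uut (V * U) = conjSymU V.1 (uut U) := by
  apply Subtype.ext
  have e : V.1 * (uut U).1 * V.1ᵀ = (uut (V * U)).1 := by
    change V.1 * (U.1 * U.1ᵀ) * V.1ᵀ = (V.1 * U.1) * (V.1 * U.1)ᵀ
    rw [transpose_mul]
    simp only [mul_assoc]
  unfold conjSymU
  rw [e, toSymU_coe (uut (V * U)).2]

theorem exists_isCOE (K : ℕ) : ∃ c : C(SymU (Fin K), ℝ) → ℝ, IsCOE c := by
  classical
  let μ : Measure (unitaryGroup (Fin K) ℂ) := Measure.haarMeasure ⊤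
  have hμ : μ Set.univ = 1 := Measure.haarMeasure_self (K₀ := (⊤ : TopologicalSpace.PositiveCompacts _))
  haveI : IsProbabilityMeasure μ := ⟨hμ⟩
  have hint : ∀ F : C(SymU (Fin K), ℝ), Integrable (fun U => F (uut U)) μ := by
    intro F
    have hc : Continuous (fun U => F (uut (K := K) U)) := F.continuous.comp continuous_uut
    exact hc.integrable_of_hasCompactSupport (HasCompactSupport.of_compactSpace _)
  refine ⟨fun F => ∫ U, F (uut U) ∂μ, ?_, ?_, ?_, ?_, ?_⟩
  · simp
  · intro F G
    exact integral_add (hint F) (hint G)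
  · intro r F
    exact integral_const_mul r _
  · intro F hF
    exact integral_nonneg fun U => hF (uut U)
  · intro V hV F F' h
    calc ∫ U, F' (uut U) ∂μ = ∫ U, F (uut (⟨V, hV⟩ * U)) ∂μ := by
          refine integral_congr_ae (Eventually.of_forall fun U => ?_)
          change F' (uut U) = F (uut (⟨V, hV⟩ * U))
          rw [h, uut_mul]
      _ = ∫ U, F (uut U) ∂μ := integral_mul_left_eq_self (fun U => F (uut U)) _

end Vale.Agent.P156.H144
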