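import Vale.Agent.P156.G.Iface
import Vale.Agent.P156.H737.GraphFinal
import Vale.Agent.P156.H520.Star
import Vale.Agent.P156.H144.Coe
import Vale.Agent.P156.H9.Meas

/-! Block G, hypothesis H3: the laws of the samples merge along good sequences. -/

open MeasureTheory ProbabilityTheory Filter Topology Finset Matrix

namespace Vale.Agent.P156.H144

variable {K : ℕ}

/-! ### The GOE side -/

/-- samples of the inverse of a GOE matrix on Gaussian vectors indexed by `κ` -/
noncomputable def COg {n : ℕ} {κ : Type*} (w : Upper n → ℝ) (g : κ → Fin n → ℝ) :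
    Matrix κ κ ℝ :=
  fun x y => (∑ a, ∑ b, g x a * ((goeMat w)⁻¹ a b) * g y b) / n

/-- law of a GOE matrix and of independent standard Gaussian vectors indexed by `κ` -/
noncomputable def POg (n : ℕ) (κ : Type*) [Fintype κ] :
    Measure ((Upper n → ℝ) × (κ → Fin n → ℝ)) :=
  (goeLaw n).prod (Measure.pi fun _ => Measure.pi fun _ => gaussianReal 0 1)

/-- GOE side of H3: the law of the Cayley transform of the samples tends to the COE -/
def GoeLimit : Prop :=
  ∀ (K : ℕ) (c : C(SymU (Fin K), ℝ) → ℝ), IsCOE c → ∀ F : C(SymU (Fin K), ℝ),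
    Tendsto (fun n => ∫ ω, F (toSymU (cay Complex.I ((COg ω.1 ω.2).map Complex.ofReal)))
      ∂(POg n (Fin K))) atTop (𝓝 (c F))

instance goeLaw_prob (n : ℕ) : IsProbabilityMeasure (goeLaw n) := by
  unfold goeLaw
  infer_instance

instance POg_prob (n : ℕ) (κ : Type*) [Fintype κ] : IsProbabilityMeasure (POg n κ) := by
  unfold POg
  infer_instance

theorem goeMat_apply_measurable {n : ℕ} (i j : Fin n) :
    Measurable (fun w : Upper n → ℝ => goeMat w i j) := by
  unfold goeMat
  split_ifs <;> exact measurable_pi_apply _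

theorem COg_measurable {n : ℕ} {κ : Type*} [Fintype κ] (x y : κ) :
    Measurable (fun ω : (Upper n → ℝ) × (κ → Fin n → ℝ) => COg ω.1 ω.2 x y) := by
  unfold COg
  refine Measurable.div_const ?_ _
  refine Finset.measurable_sum _ fun a _ => Finset.measurable_sum _ fun b _ => ?_
  refine Measurable.mul (Measurable.mul ?_ ?_) ?_
  · exact (measurable_pi_apply a).comp ((measurable_pi_apply x).comp measurable_snd)
  · exact (H9.measurable_inv (M := fun w : Upper n → ℝ => goeMat w)
      (fun i j => goeMat_apply_measurable i j) a b).comp measurable_fst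
  · exact (measurable_pi_apply b).comp ((measurable_pi_apply y).comp measurable_snd)

theorem goeMat_transpose {n : ℕ} (w : Upper n → ℝ) : (goeMat w)ᵀ = goeMat w := by
  have h := goeMat_isHermitian w
  rw [Matrix.IsHermitian, Matrix.conjTranspose_eq_transpose_of_trivial] at h
  exact h

theorem COg_symm {n : ℕ} {κ : Type*} (w : Upper n → ℝ) (g : κ → Fin n → ℝ) :
    (COg w g)ᵀ = COg w g := by
  ext x y
  rw [transpose_apply]
  unfold COg
  congr 1
  rw [Finset.sum_comm]
  refine Finset.sum_congr rfl fun b _ => Finset.sum_congr rfl fun a _ => ?_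
  have h : (goeMat w)⁻¹ a b = (goeMat w)⁻¹ b a := by
    have h2 := Matrix.transpose_nonsing_inv (goeMat w)
    rw [goeMat_transpose] at h2
    exact (congrFun (congrFun h2 a) b).symm
  rw [h]
  ring

theorem measurable_of_cont {Ω : Type*} [MeasurableSpace Ω] {K : ℕ}
    {C : Ω → Matrix (Fin K) (Fin K) ℝ} (hC : ∀ i j, Measurable fun ω => C ω i j)
    {F : Matrix (Fin K) (Fin K) ℝ → ℝ} (hF : Continuous F) : Measurable fun ω => F (C ω) := by
  have h1 : Measurable (fun C : Fin K → Fin K → ℝ => F C) :=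
    Continuous.measurable (show Continuous (fun C : Fin K → Fin K → ℝ => F C) from hF)
  exact h1.comp (g := fun C : Fin K → Fin K → ℝ => F C) (f := fun ω i j => C ω i j)
    (measurable_pi_iff.2 fun i => measurable_pi_iff.2 fun j => hC i j)

/-- symmetric matrices, as functions -/
abbrev Sy (K : ℕ) : Type := {C : Fin K → Fin K → ℝ // ∀ i j, C j i = C i j}

theorem Sy.trans (C : Sy K) : (Matrix.of C.1)ᵀ = Matrix.of C.1 := by
  ext i j
  exact C.2 i j

theorem continuous_ptS' : Continuous (fun C : Sy K => ptS (Matrix.of C.1)) := by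
  rw [continuous_induced_rng]
  have e : (Subtype.val ∘ fun C : Sy K => ptS (Matrix.of C.1))
      = fun C : Sy K => H9.cay ((Matrix.of C.1).map Complex.ofReal) := by
    funext C
    exact ptS_coe C.trans
  rw [e]
  rw [continuous_iff_continuousAt]
  intro C₀
  refine tendsto_pi_nhds.2 fun i => tendsto_pi_nhds.2 fun j => ?_
  rw [tendsto_iff_norm_sub_tendsto_zero]
  have hsum : Tendsto (fun C : Sy K => 2 * (Fintype.card (Fin K) : ℝ) ^ 2 *
      ∑ a, ∑ b, |C.1 a b - C₀.1 a b|) (𝓝 C₀) (𝓝 0) := by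
    have hc : Continuous (fun C : Sy K => 2 * (Fintype.card (Fin K) : ℝ) ^ 2 *
      ∑ a, ∑ b, |C.1 a b - C₀.1 a b|) := by
      refine continuous_const.mul (continuous_finsetSum _ fun a _ =>
        continuous_finsetSum _ fun b _ => ?_)
      exact (((continuous_apply_apply a b).comp continuous_subtype_val).sub
        continuous_const).abs
    have := hc.tendsto C₀
    simpa using this
  refine squeeze_zero (fun _ => norm_nonneg _) (fun C => ?_) hsum
  refine H9.norm_cay_sub_le (cxH C₀.trans) (cxH C.trans) (fun a b => ?_) i j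
  rw [map_apply, map_apply, ← Complex.ofReal_sub, Complex.norm_real, Matrix.of_apply,
    Matrix.of_apply, Real.norm_eq_abs]
  refine (Finset.single_le_sum (f := fun b => |C.1 a b - C₀.1 a b|)
    (fun _ _ => abs_nonneg _) (Finset.mem_univ b)).trans ?_
  exact Finset.single_le_sum (f := fun a => ∑ b, |C.1 a b - C₀.1 a b|)
    (fun _ _ => Finset.sum_nonneg fun _ _ => abs_nonneg _) (Finset.mem_univ a)

theorem measurable_ptS_comp {Ω : Type*} [MeasurableSpace Ω]
    {C : Ω → Matrix (Fin K) (Fin K) ℝ} (hC : ∀ i j, Measurable fun ω => C ω i j)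
    (hs : ∀ ω, (C ω)ᵀ = C ω) (F : C(SymU (Fin K), ℝ)) : Measurable fun ω => F (ptS (C ω)) := by
  have h1 : Measurable (fun C : Sy K => F (ptS (Matrix.of C.1))) :=
    (F.continuous.comp continuous_ptS').measurable
  have hs' : ∀ ω i j, C ω j i = C ω i j := fun ω i j => congrFun (congrFun (hs ω) i) j
  have h0 : Measurable (fun ω => (fun i j => C ω i j : Fin K → Fin K → ℝ)) :=
    measurable_pi_iff.2 fun i => measurable_pi_iff.2 fun j => hC i j
  have h2 : Measurable (fun ω => (⟨fun i j => C ω i j, hs' ω⟩ : Sy K)) := h0.subtype_mk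
  have e : (fun ω => F (ptS (C ω))) = (fun C : Sy K => F (ptS (Matrix.of C.1))) ∘
      (fun ω => (⟨fun i j => C ω i j, hs' ω⟩ : Sy K)) := by
    funext ω
    have : Matrix.of (fun i j => C ω i j) = C ω := by ext i j; rfl
    rw [Function.comp_apply, this]
  rw [e]
  exact h1.comp h2

/-! ### The graph side -/

/-- centred and scaled samples -/
noncomputable def Cw (m : ℂ) (R : Matrix (Fin K) (Fin K) ℂ) : Matrix (Fin K) (Fin K) ℝ :=
  fun i j => ((R i j).re - if i = j then m.re else 0) / m.im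

theorem cay_eq_cayI {m : ℂ} (hm : m.im ≠ 0) {R : Matrix (Fin K) (Fin K) ℂ}
    (hR : ∀ i j, (R i j).im = 0) (hs : Rᵀ = R) :
    cay m R = cay Complex.I ((Cw m R).map Complex.ofReal) := by
  have hC : (Cw m R)ᵀ = Cw m R := by
    ext i j
    rw [transpose_apply]
    unfold Cw
    have := congrFun (congrFun hs i) j
    rw [transpose_apply] at this
    rw [this]
    simp only [eq_comm]
  set C := (Cw m R).map Complex.ofReal with hCdef
  have hmc : (m.im : ℂ) ≠ 0 := by exact_mod_cast hm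
  have e0 : ∀ i j, (m.im : ℂ) * C i j = R i j - if i = j then (m.re : ℂ) else 0 := by
    intro i j
    rw [hCdef, map_apply]
    unfold Cw
    have h1 : R i j = ((R i j).re : ℂ) := Complex.ext (by simp) (by simp [hR i j])
    rw [h1]
    split_ifs with h
    · push_cast
      field_simp
      simp
    · push_cast
      field_simp
      simp
  have e1 : R - m • (1 : Matrix (Fin K) (Fin K) ℂ) = (m.im : ℂ) • (C - Complex.I • 1) := by
    ext i j
    rw [Matrix.sub_apply, Matrix.smul_apply, Matrix.smul_apply, Matrix.sub_apply,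
      Matrix.smul_apply, Matrix.one_apply, smul_eq_mul, smul_eq_mul, smul_eq_mul, mul_sub, e0]
    split_ifs with h
    · apply Complex.ext <;> simp
    · simp
  have e2 : R - (starRingEnd ℂ m) • (1 : Matrix (Fin K) (Fin K) ℂ)
      = (m.im : ℂ) • (C - (starRingEnd ℂ Complex.I) • 1) := by
    ext i j
    rw [Matrix.sub_apply, Matrix.smul_apply, Matrix.smul_apply, Matrix.sub_apply,
      Matrix.smul_apply, Matrix.one_apply, smul_eq_mul, smul_eq_mul, smul_eq_mul, mul_sub, e0]
    split_ifs with h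
    · apply Complex.ext <;> simp
    · simp
  have hu : IsUnit (C - (starRingEnd ℂ Complex.I) • (1 : Matrix (Fin K) (Fin K) ℂ)).det := by
    have := H9.isUnit_det_pI (A := C) (cxH hC)
    unfold H9.pI at this
    rwa [Complex.conj_I, neg_smul, sub_neg_eq_add]
  unfold cay
  rw [e1, e2]
  have e3 : ((m.im : ℂ) • (C - (starRingEnd ℂ Complex.I) • (1 : Matrix (Fin K) (Fin K) ℂ)))⁻¹
      = (m.im : ℂ)⁻¹ • (C - (starRingEnd ℂ Complex.I) • (1 : Matrix (Fin K) (Fin K) ℂ))⁻¹ := by
    apply Matrix.inv_eq_right_inv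
    rw [smul_mul_smul_comm, Matrix.mul_nonsing_inv _ hu, mul_inv_cancel₀ hmc, one_smul]
  rw [e3, smul_mul_smul_comm, mul_inv_cancel₀ hmc, one_smul]

theorem inv_map_ofReal {V : Type*} [Fintype V] [DecidableEq V] (M : Matrix V V ℝ) :
    (M.map Complex.ofReal)⁻¹ = (M⁻¹).map Complex.ofReal := by
  have hdet : (M.map Complex.ofReal).det = ((M.det : ℝ) : ℂ) :=
    (RingHom.map_det Complex.ofRealHom M).symm
  have hadj : (M.map Complex.ofReal).adjugate = M.adjugate.map Complex.ofReal :=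
    (RingHom.map_adjugate Complex.ofRealHom M).symm
  rw [Matrix.inv_def, Matrix.inv_def, hdet, hadj, Ring.inverse_eq_inv', Ring.inverse_eq_inv']
  ext i j
  simp

theorem resD_im {n : ℕ} (G : SimpleGraph (Fin n)) (E : ℝ) (v w : Fin n) :
    (resD (adj G) ∅ (E : ℂ) v w).im = 0 := by
  unfold resD
  have : cutMat (adj G) ∅ (E : ℂ) = (adj G - E • (1 : Matrix (Fin n) (Fin n) ℝ)).map Complex.ofReal := by
    ext a b
    unfold cutMat
    rw [map_apply, Matrix.sub_apply, Matrix.smul_apply, Matrix.one_apply]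
    simp only [Finset.notMem_empty, or_self, if_false]
    split_ifs <;> simp
  rw [this, inv_map_ofReal, map_apply, Complex.ofReal_im]

theorem centreMat_im {n d : ℕ} (ω : SimpleGraph (Fin n) × StarPos n d K) (E : ℝ) (i j : Fin K) :
    (centreMat ω (E : ℂ) i j).im = 0 := resD_im _ _ _ _

theorem centreMat_transpose {n d : ℕ} (ω : SimpleGraph (Fin n) × StarPos n d K) (z : ℂ) :
    (centreMat ω z)ᵀ = centreMat ω z := by
  unfold centreMat
  rw [transpose_submatrix, H520.res_symm]

theorem Cw_transpose {m : ℂ} {R : Matrix (Fin K) (Fin K) ℂ} (hs : Rᵀ = R) :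
    (Cw m R)ᵀ = Cw m R := by
  ext i j
  rw [transpose_apply]
  unfold Cw
  have := congrFun (congrFun hs i) j
  rw [transpose_apply] at this
  rw [this]
  simp only [eq_comm]

theorem abs_avg_sub_le {Ω : Type*} (s : Finset Ω) {Φ Ψ Θ : Ω → ℝ}
    (h : ∀ ω, |Φ ω - Ψ ω| ≤ Θ ω) : |avg s Φ - avg s Ψ| ≤ avg s Θ := by
  unfold avg
  rw [← sub_div, ← Finset.sum_sub_distrib, abs_div, Nat.abs_cast]
  gcongr
  exact (Finset.abs_sum_le_sum_abs _ _).trans (Finset.sum_le_sum fun ω _ => h ω)

theorem abs_integral_sub_le {Ω : Type*} [MeasurableSpace Ω] (P : Measure Ω)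
    {Φ Ψ Θ : Ω → ℝ} (h1 : Integrable Φ P) (h2 : Integrable Ψ P) (h3 : Integrable Θ P)
    (h : ∀ ω, |Φ ω - Ψ ω| ≤ Θ ω) : |∫ ω, Φ ω ∂P - ∫ ω, Ψ ω ∂P| ≤ ∫ ω, Θ ω ∂P := by
  rw [← integral_sub h1 h2]
  refine (abs_integral_le_integral_abs).trans ?_
  exact integral_mono (h1.sub h2).abs h3 h

theorem integrable_of_bdd {Ω : Type*} [MeasurableSpace Ω] (P : Measure Ω) [IsFiniteMeasure P]
    {Φ : Ω → ℝ} (hm : Measurable Φ) {B : ℝ} (hB : ∀ ω, |Φ ω| ≤ B) : Integrable Φ P :=
  Integrable.of_bound hm.aestronglyMeasurable B (Eventually.of_forall fun ω => by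
    rw [Real.norm_eq_abs]; exact hB ω)

/-- bounded continuous functions of the full matrix of samples -/
theorem merge_core {d : ℕ} (hS : SpecS d) (hO : GoeLimit) {𝒰 : Ultrafilter ℕ} {E : ℕ → ℝ}
    {E₀ : ℝ} (hG : GoodSeq d 𝒰 E E₀) (K : ℕ) (F : Matrix (Fin K) (Fin K) ℝ → ℝ)
    (hF : Continuous F) (hb : ∀ C, |F C| ≤ 1) :
    Tendsto (fun n => avg (WW n d K) (fun ω => F (Cw (mdE d (E n)) (centreMat ω (E n : ℂ))))
      - ∫ ω, F (COg ω.1 ω.2) ∂(POg n (Fin K))) 𝒰 (𝓝 0) := by
  obtain ⟨c, hc⟩ := exists_isCOE K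
  rw [Metric.tendsto_nhds]
  intro ε hε
  obtain ⟨F', χ, hχ0, hχ, hsand⟩ := sandwich K F hF hb (ε := ε / 8) (by positivity)
  have hχc := hχ c hc
  have hS1 := hS 𝒰 E E₀ hG K c hc F'
  have hS2 := hS 𝒰 E E₀ hG K c hc χ
  have hO1 := (hO K c hc F').mono_left hG.atTop
  have hO2 := (hO K c hc χ).mono_left hG.atTop
  obtain ⟨c0, c1, hc0, him, -⟩ := H737.im_bounds hG
  have hε8 : 0 < ε / 8 := by positivity
  filter_upwards [Metric.tendsto_nhds.1 hS1 _ hε8, Metric.tendsto_nhds.1 hS2 _ hε8,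
    Metric.tendsto_nhds.1 hO1 _ hε8, Metric.tendsto_nhds.1 hO2 _ hε8, him] with n a1 a2 b1 b2 hn
  have hm : (mdE d (E n)).im ≠ 0 := (lt_of_lt_of_le hc0 hn).ne'
  have hpt : ∀ (F : C(SymU (Fin K), ℝ)) (ω : SimpleGraph (Fin n) × StarPos n d K),
      F (toSymU (cay (mdE d (E n)) (centreMat ω (E n : ℂ))))
        = F (ptS (Cw (mdE d (E n)) (centreMat ω (E n : ℂ)))) := by
    intro F ω
    unfold ptS
    rw [cay_eq_cayI hm (centreMat_im ω (E n)) (centreMat_transpose ω _)]
  simp only [hpt] at a1 a2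
  change dist (∫ ω, F' (ptS (COg ω.1 ω.2)) ∂(POg n (Fin K))) _ < _ at b1
  change dist (∫ ω, χ (ptS (COg ω.1 ω.2)) ∂(POg n (Fin K))) _ < _ at b2
  have e1 : |avg (WW n d K) (fun ω => F (Cw (mdE d (E n)) (centreMat ω (E n : ℂ))))
      - avg (WW n d K) (fun ω => F' (ptS (Cw (mdE d (E n)) (centreMat ω (E n : ℂ)))))|
      ≤ avg (WW n d K) (fun ω => χ (ptS (Cw (mdE d (E n)) (centreMat ω (E n : ℂ))))) :=
    abs_avg_sub_le _ fun ω => hsand _ (Cw_transpose (centreMat_transpose ω _))
  have e2 : |∫ ω, F (COg ω.1 ω.2) ∂(POg n (Fin K))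
      - ∫ ω, F' (ptS (COg ω.1 ω.2)) ∂(POg n (Fin K))|
      ≤ ∫ ω, χ (ptS (COg ω.1 ω.2)) ∂(POg n (Fin K)) := by
    refine abs_integral_sub_le _ ?_ ?_ ?_ fun ω => hsand _ (COg_symm _ _)
    · exact integrable_of_bdd _ (measurable_of_cont (fun i j => COg_measurable i j) hF)
        (fun ω => hb _)
    · refine integrable_of_bdd _ (measurable_ptS_comp (fun i j => COg_measurable i j)
        (fun ω => COg_symm _ _) F') (B := ‖F'‖) fun ω => ?_
      exact F'.norm_coe_le_norm _
    · refine integrable_of_bdd _ (measurable_ptS_comp (fun i j => COg_measurable i j)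
        (fun ω => COg_symm _ _) χ) (B := ‖χ‖) fun ω => ?_
      exact χ.norm_coe_le_norm _
  rw [Real.dist_eq] at a1 a2 b1 b2 ⊢
  rw [sub_zero]
  rw [abs_lt] at a1 a2 b1 b2 ⊢
  rw [abs_le] at e1 e2
  constructor <;> linarith [a1.1, a1.2, a2.1, a2.2, b1.1, b1.2, b2.1, b2.2, e1.1, e1.2, e2.1, e2.2]

/-- reindexing of the Gaussian vectors -/
theorem integral_reindex {n : ℕ} {κ κ' : Type*} [Fintype κ] [Fintype κ'] (e : κ' ≃ κ)
    (Φ : ((Upper n → ℝ) × (κ → Fin n → ℝ)) → ℝ) :
    ∫ ω, Φ ω ∂(POg n κ) = ∫ ω, Φ (ω.1, fun x => ω.2 (e.symm x)) ∂(POg n κ') := by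
  have h1 := measurePreserving_piCongrLeft
    (fun _ : κ => (Measure.pi fun _ : Fin n => gaussianReal 0 1)) e
  have h2 : MeasurePreserving (Prod.map id (MeasurableEquiv.piCongrLeft (fun _ : κ => Fin n → ℝ) e))
      (POg n κ') (POg n κ) := (MeasurePreserving.id (goeLaw n)).prod h1
  have h3 : MeasurePreserving ((MeasurableEquiv.refl (Upper n → ℝ)).prodCongr
      (MeasurableEquiv.piCongrLeft (fun _ : κ => Fin n → ℝ) e)) (POg n κ') (POg n κ) := h2
  rw [← h3.integral_comp' Φ]
  refine integral_congr_ae (Eventually.of_forall fun ω => ?_)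
  change Φ (ω.1, _) = Φ (ω.1, _)
  congr 2
  funext x
  change (Equiv.piCongrLeft (fun _ : κ => Fin n → ℝ) e) ω.2 x = _
  rw [Equiv.piCongrLeft_apply]
  simp

theorem CG_eq {d n : ℕ} {E : ℝ} (N M : ℕ)
    (ω : SimpleGraph (Fin n) × StarPos n d (N * (M + 1))) (x y : Fin N × Fin (M + 1))
    (h : x ≠ y) : G.CG d E N M ω x y =
      Cw (mdE d E) (centreMat ω (E : ℂ)) (finProdFinEquiv x) (finProdFinEquiv y) := by
  unfold G.CG Cw
  rw [if_neg (fun h' => h (finProdFinEquiv.injective h')), sub_zero]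

/-- **H3**: the laws of the samples merge along good sequences. -/
theorem mergeH3_one {d : ℕ} (hS : SpecS d) (hO : GoeLimit) {𝒰 : Ultrafilter ℕ} {E : ℕ → ℝ}
    {E₀ : ℝ} (hG : GoodSeq d 𝒰 E E₀) (N M : ℕ)
    (F : ((Fin N × Fin (M + 1)) → (Fin N × Fin (M + 1)) → ℝ) → ℝ) (hF : Continuous F)
    (hb : ∀ C, |F C| ≤ 1) (hoff : ∀ C C', (∀ x y, x ≠ y → C x y = C' x y) → F C = F C') :
    Tendsto (fun n => avg (WW n d (N * (M + 1))) (fun ω => F (G.CG d (E n) N M ω)) -
      ∫ ω, F (G.CO N M ω) ∂(G.PO n N M)) 𝒰 (𝓝 0) := by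
  let F₁ : Matrix (Fin (N * (M + 1))) (Fin (N * (M + 1))) ℝ → ℝ :=
    fun C => F (fun x y => C (finProdFinEquiv x) (finProdFinEquiv y))
  have hF₁ : Continuous F₁ := by
    refine hF.comp ?_
    refine continuous_pi fun x => continuous_pi fun y => ?_
    exact continuous_id.matrix_elem _ _
  have h := merge_core hS hO hG (N * (M + 1)) F₁ hF₁ (fun C => hb _)
  refine h.congr fun n => ?_
  congr 1
  · congr 1
    funext ω
    exact hoff _ _ fun x y hxy => (CG_eq N M ω x y hxy).symm
  · have h2 := integral_reindex (n := n) (finProdFinEquiv (m := N) (n := M + 1))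
      (fun ω => F₁ (COg ω.1 ω.2))
    rw [h2]
    change _ = ∫ ω, F (G.CO N M ω) ∂(POg n (Fin N × Fin (M + 1)))
    refine integral_congr_ae (Eventually.of_forall fun ω => ?_)
    change F _ = F _
    congr 1
    funext x y
    unfold COg G.CO
    simp only [Equiv.symm_apply_apply]

/-- **H3** in the form of the interface -/
theorem mergeH3 {d : ℕ} (hS : SpecS d) (hO : GoeLimit) : G.MergeH3 d := by
  intro 𝒰 E E₀ hG N M F hF ⟨c, hc⟩ hoff
  set c' := max c 1 with hc'
  have hpos : 0 < c' := lt_of_lt_of_le one_pos (le_max_right _ _)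
  have h := (mergeH3_one hS hO hG N M (fun C => F C / c') (hF.div_const _) (fun C => by
    rw [abs_div, abs_of_pos hpos, div_le_one hpos]
    exact (hc C).trans (le_max_left _ _)) (fun C C' hCC => by rw [hoff C C' hCC])).const_mul c'
  rw [mul_zero] at h
  refine h.congr fun n => ?_
  rw [mul_sub]
  congr 1
  · unfold avg
    rw [← mul_div_assoc, Finset.mul_sum]
    congr 1
    refine Finset.sum_congr rfl fun ω _ => ?_
    field_simp
  · rw [← integral_const_mul]
    refine integral_congr_ae (Eventually.of_forall fun ω => ?_)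
    change c' * (F _ / c') = _
    field_simp

end Vale.Agent.P156.H144
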