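import Vale.Agent.P156.H144.Cyc

open MeasureTheory ProbabilityTheory
open scoped ENNReal BigOperators

namespace Vale.Agent.P156.H144

variable {V : Type*} [MeasurableSpace V]

/-- cyclic product of length `m+1` of a real kernel -/
def cyc (m : ℕ) (k : V → V → ℝ) (v : Fin (m+1) → V) : ℝ :=
  (∏ i : Fin m, k (v i.castSucc) (v i.succ)) * k (v (Fin.last m)) (v 0)

/-- block average of cyclic products -/
noncomputable def blkT (m N mm : ℕ) (hm : m + 1 ≤ mm) (k : V → V → ℝ)
    (v : Fin N × Fin mm → V) : ℝ :=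
  (1 / (N:ℝ)) * ∑ b : Fin N, cyc m k (fun j => v (b, Fin.castLE hm j))

theorem cyc_measurable (m : ℕ) {k : V → V → ℝ} (hk : Measurable (Function.uncurry k)) :
    Measurable (cyc m k) := by
  unfold cyc
  refine Measurable.mul ?_ ?_
  · refine Finset.measurable_prod _ fun i _ => ?_
    have : Measurable (fun v : Fin (m+1) → V => (v i.castSucc, v i.succ)) := by fun_prop
    exact hk.comp this
  · have : Measurable (fun v : Fin (m+1) → V => (v (Fin.last m), v 0)) := by fun_prop
    exact hk.comp this

omit [MeasurableSpace V] in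
theorem cyc_eq_prod (m : ℕ) (k : V → V → ℝ) (v : Fin (m+1) → V) :
    cyc m k v = ∏ j : Fin (m+1), k (v j) (v (j+1)) := by
  rw [Fin.prod_univ_castSucc, cyc]
  congr 1
  · refine Finset.prod_congr rfl fun i _ => ?_
    rw [Fin.coeSucc_eq_succ]
  · rw [Fin.last_add_one]

omit [MeasurableSpace V] in
theorem cycE_eq_prod (m : ℕ) (κ : Fin (m+1) → V → V → ℝ≥0∞) (v : Fin (m+1) → V) :
    cycE m κ v = ∏ j : Fin (m+1), κ j (v j) (v (j+1)) := by
  rw [Fin.prod_univ_castSucc, cycE]
  congr 1
  · refine Finset.prod_congr rfl fun i _ => ?_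
    rw [Fin.coeSucc_eq_succ]
  · rw [Fin.last_add_one]

/-- telescoping bound for differences of products -/
theorem abs_prod_sub_prod_le {ι : Type*} [DecidableEq ι] (s : Finset ι) (a b : ι → ℝ) :
    |∏ i ∈ s, a i - ∏ i ∈ s, b i| ≤
      ∑ j ∈ s, |a j - b j| * ∏ i ∈ s.erase j, (|a i| + |b i|) := by
  induction s using Finset.induction_on with
  | empty => simp
  | insert j s hj ih =>
    rw [Finset.prod_insert hj, Finset.prod_insert hj, Finset.sum_insert hj, Finset.erase_insert hj]
    have h1 : a j * ∏ i ∈ s, a i - b j * ∏ i ∈ s, b i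
        = (a j - b j) * ∏ i ∈ s, a i + b j * (∏ i ∈ s, a i - ∏ i ∈ s, b i) := by ring
    rw [h1]
    refine (abs_add_le _ _).trans ?_
    rw [abs_mul, abs_mul]
    refine add_le_add ?_ ?_
    · refine mul_le_mul_of_nonneg_left ?_ (abs_nonneg _)
      rw [Finset.abs_prod]
      exact Finset.prod_le_prod (fun i _ => abs_nonneg _)
        (fun i _ => le_add_of_nonneg_right (abs_nonneg _))
    · refine (mul_le_mul_of_nonneg_left ih (abs_nonneg _)).trans ?_
      rw [Finset.mul_sum]
      refine Finset.sum_le_sum fun l hl => ?_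
      have hlj : j ≠ l := fun h => hj (h ▸ hl)
      rw [Finset.erase_insert_of_ne hlj, Finset.prod_insert (by simp [hj])]
      have hp : 0 ≤ ∏ i ∈ s.erase l, (|a i| + |b i|) := Finset.prod_nonneg fun i _ => by positivity
      calc |b j| * (|a l - b l| * ∏ i ∈ s.erase l, (|a i| + |b i|))
          = |a l - b l| * (|b j| * ∏ i ∈ s.erase l, (|a i| + |b i|)) := by ring
        _ ≤ |a l - b l| * ((|a j| + |b j|) * ∏ i ∈ s.erase l, (|a i| + |b i|)) := by
            refine mul_le_mul_of_nonneg_left ?_ (abs_nonneg _)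
            refine mul_le_mul_of_nonneg_right ?_ hp
            exact le_add_of_nonneg_left (abs_nonneg _)

/-- Hilbert-Schmidt norm of `|k| + |k'|` -/
theorem hs_sum_le (π : Measure V) [IsProbabilityMeasure π]
    {k k' : V → V → ℝ} (hk : Measurable (Function.uncurry k))
    (hk' : Measurable (Function.uncurry k')) {δ M : ℝ}
    (hkM : hs π (fun x y => ENNReal.ofReal |k x y|) ≤ ENNReal.ofReal (M^2))
    (hd : hs π (fun x y => ENNReal.ofReal |k x y - k' x y|) ≤ ENNReal.ofReal (δ^2)) :
    hs π (fun x y => ENNReal.ofReal (|k x y| + |k' x y|)) ≤ ENNReal.ofReal (8 * M^2 + 2*δ^2) := by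
  have hpt2 : ∀ x y, (ENNReal.ofReal (|k x y| + |k' x y|)) ^ 2 ≤
      8 * (ENNReal.ofReal |k x y|)^2 + 2 * (ENNReal.ofReal |k x y - k' x y|)^2 := by
    intro x y
    rw [← ENNReal.ofReal_pow (by positivity), ← ENNReal.ofReal_pow (by positivity),
      ← ENNReal.ofReal_pow (by positivity)]
    rw [show (8:ℝ≥0∞) = ENNReal.ofReal 8 by norm_num, show (2:ℝ≥0∞) = ENNReal.ofReal 2 by norm_num,
      ← ENNReal.ofReal_mul (by positivity), ← ENNReal.ofReal_mul (by positivity),
      ← ENNReal.ofReal_add (by positivity) (by positivity)]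
    refine ENNReal.ofReal_le_ofReal ?_
    have h1 : |k' x y| ≤ |k x y| + |k x y - k' x y| := by
      have := abs_sub_abs_le_abs_sub (k' x y) (k x y)
      rw [abs_sub_comm] at this
      linarith
    nlinarith [abs_nonneg (k x y), abs_nonneg (k' x y), abs_nonneg (k x y - k' x y),
      sq_nonneg (2 * |k x y| - |k x y - k' x y|)]
  have hA : Measurable (fun p : V × V => (ENNReal.ofReal |k p.1 p.2|)^2) := by
    have : Measurable (fun p : V × V => (ENNReal.ofReal |Function.uncurry k p|)^2) := by fun_prop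
    exact this
  have hB : Measurable (fun p : V × V => (ENNReal.ofReal |k p.1 p.2 - k' p.1 p.2|)^2) := by
    have : Measurable (fun p : V × V =>
      (ENNReal.ofReal |Function.uncurry k p - Function.uncurry k' p|)^2) := by fun_prop
    exact this
  have hAx : ∀ x, Measurable (fun y => (ENNReal.ofReal |k x y|)^2) := fun x => by
    have : Measurable (k x) := hk.of_uncurry_left
    fun_prop
  have hBx : ∀ x, Measurable (fun y => (ENNReal.ofReal |k x y - k' x y|)^2) := fun x => by
    have h1 : Measurable (k x) := hk.of_uncurry_left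
    have h2 : Measurable (k' x) := hk'.of_uncurry_left
    fun_prop
  have hAi : Measurable (fun x => ∫⁻ y, (ENNReal.ofReal |k x y|)^2 ∂π) := hA.lintegral_prod_right'
  have hBi : Measurable (fun x => ∫⁻ y, (ENNReal.ofReal |k x y - k' x y|)^2 ∂π) :=
    hB.lintegral_prod_right'
  calc hs π (fun x y => ENNReal.ofReal (|k x y| + |k' x y|))
      ≤ ∫⁻ x, ∫⁻ y, (8 * (ENNReal.ofReal |k x y|)^2 + 2 * (ENNReal.ofReal |k x y - k' x y|)^2)
          ∂π ∂π := lintegral_mono fun x => lintegral_mono fun y => hpt2 x y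
    _ = ∫⁻ x, (8 * (∫⁻ y, (ENNReal.ofReal |k x y|)^2 ∂π)
          + 2 * ∫⁻ y, (ENNReal.ofReal |k x y - k' x y|)^2 ∂π) ∂π := by
        refine lintegral_congr fun x => ?_
        rw [lintegral_add_left ((hAx x).const_mul 8), lintegral_const_mul 8 (hAx x),
          lintegral_const_mul 2 (hBx x)]
    _ = 8 * hs π (fun x y => ENNReal.ofReal |k x y|)
          + 2 * hs π (fun x y => ENNReal.ofReal |k x y - k' x y|) := by
        rw [lintegral_add_left (hAi.const_mul 8), lintegral_const_mul 8 hAi,
          lintegral_const_mul 2 hBi]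
        rfl
    _ ≤ 8 * ENNReal.ofReal (M^2) + 2 * ENNReal.ofReal (δ^2) := by gcongr
    _ = ENNReal.ofReal (8 * M^2 + 2*δ^2) := by
        rw [show (8:ℝ≥0∞) = ENNReal.ofReal 8 by norm_num, show (2:ℝ≥0∞) = ENNReal.ofReal 2 by norm_num,
          ← ENNReal.ofReal_mul (by positivity), ← ENNReal.ofReal_mul (by positivity),
          ← ENNReal.ofReal_add (by positivity) (by positivity)]

/-- L1 distance of cyclic products in terms of Hilbert-Schmidt norms -/
theorem lintegral_cyc_sub_le (π : Measure V) [IsProbabilityMeasure π] (m : ℕ)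
    {k k' : V → V → ℝ} (hk : Measurable (Function.uncurry k))
    (hk' : Measurable (Function.uncurry k')) {δ M : ℝ} (hδ : 0 ≤ δ)
    (hkM : hs π (fun x y => ENNReal.ofReal |k x y|) ≤ ENNReal.ofReal (M^2))
    (hd : hs π (fun x y => ENNReal.ofReal |k x y - k' x y|) ≤ ENNReal.ofReal (δ^2)) :
    ∫⁻ v, ENNReal.ofReal |cyc (m+1) k v - cyc (m+1) k' v| ∂(Measure.pi fun _ : Fin (m+2) => π)
      ≤ ENNReal.ofReal ((m+2) * δ * (Real.sqrt (8 * M^2 + 2 * δ^2))^(m+1)) := by
  classical
  set D : V → V → ℝ≥0∞ := fun x y => ENNReal.ofReal |k x y - k' x y| with hD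
  set B : V → V → ℝ≥0∞ := fun x y => ENNReal.ofReal (|k x y| + |k' x y|) with hB
  have hDm : Measurable (Function.uncurry D) := by
    have : Measurable (fun p : V × V => ENNReal.ofReal |Function.uncurry k p - Function.uncurry k' p|) := by
      fun_prop
    exact this
  have hBm : Measurable (Function.uncurry B) := by
    have : Measurable (fun p : V × V => ENNReal.ofReal (|Function.uncurry k p| + |Function.uncurry k' p|)) := by
      fun_prop
    exact this
  have hBhs : hs π B ≤ ENNReal.ofReal (8 * M^2 + 2*δ^2) := hs_sum_le π hk hk' hkM hd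
  let κ : Fin (m+2) → Fin (m+2) → V → V → ℝ≥0∞ := fun j i => if i = j then D else B
  have hκm : ∀ j i, Measurable (Function.uncurry (κ j i)) := by
    intro j i
    by_cases h : i = j
    · simp only [κ, h, if_true]; exact hDm
    · simp only [κ, h, if_false]; exact hBm
  have hpt : ∀ v : Fin (m+2) → V, ENNReal.ofReal |cyc (m+1) k v - cyc (m+1) k' v|
      ≤ ∑ j, cycE (m+1) (κ j) v := by
    intro v
    rw [cyc_eq_prod, cyc_eq_prod]
    have h := abs_prod_sub_prod_le Finset.univ (fun j => k (v j) (v (j+1)))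
      (fun j => k' (v j) (v (j+1)))
    refine (ENNReal.ofReal_le_ofReal h).trans ?_
    rw [ENNReal.ofReal_sum_of_nonneg]
    · refine Finset.sum_le_sum fun j _ => ?_
      rw [cycE_eq_prod, ← Finset.mul_prod_erase Finset.univ _ (Finset.mem_univ j),
        ENNReal.ofReal_mul (abs_nonneg _), ENNReal.ofReal_prod_of_nonneg]
      · refine mul_le_mul' (by simp [κ, hD]) (le_of_eq ?_)
        refine Finset.prod_congr rfl fun i hi => ?_
        have : i ≠ j := Finset.ne_of_mem_erase hi
        simp only [κ, this, if_false, hB]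
      · intro i _; positivity
    · intro j _
      exact mul_nonneg (abs_nonneg _) (Finset.prod_nonneg fun i _ => by positivity)
  calc ∫⁻ v, ENNReal.ofReal |cyc (m+1) k v - cyc (m+1) k' v| ∂(Measure.pi fun _ : Fin (m+2) => π)
      ≤ ∫⁻ v, ∑ j, cycE (m+1) (κ j) v ∂(Measure.pi fun _ : Fin (m+2) => π) := lintegral_mono hpt
    _ = ∑ j, ∫⁻ v, cycE (m+1) (κ j) v ∂(Measure.pi fun _ : Fin (m+2) => π) := by
        rw [lintegral_finsetSum]
        intro j _
        exact cycE_measurable _ (hκm j)
    _ ≤ ∑ j : Fin (m+2), ENNReal.ofReal (δ * (Real.sqrt (8 * M^2 + 2 * δ^2))^(m+1)) := by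
        refine Finset.sum_le_sum fun j _ => ?_
        have h := lintegral_cycE_sq_le π m (κ j) (hκm j)
        have h2 : ∏ i, hs π (κ j i) ≤ (ENNReal.ofReal (δ * (Real.sqrt (8 * M^2 + 2 * δ^2))^(m+1)))^2 := by
          rw [← Finset.mul_prod_erase Finset.univ _ (Finset.mem_univ j)]
          have e1 : hs π (κ j j) ≤ ENNReal.ofReal (δ^2) := by simpa [κ] using hd
          have e2 : ∏ i ∈ Finset.univ.erase j, hs π (κ j i)
              ≤ ∏ i ∈ (Finset.univ : Finset (Fin (m+2))).erase j, ENNReal.ofReal (8 * M^2 + 2*δ^2) := by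
            refine Finset.prod_le_prod' fun i hi => ?_
            have : i ≠ j := Finset.ne_of_mem_erase hi
            simp only [κ, this, if_false]
            exact hBhs
          refine (mul_le_mul' e1 e2).trans (le_of_eq ?_)
          rw [Finset.prod_const, Finset.card_erase_of_mem (Finset.mem_univ j), Finset.card_univ,
            Fintype.card_fin, ← ENNReal.ofReal_pow (by positivity), ← ENNReal.ofReal_pow (by positivity),
            ← ENNReal.ofReal_mul (by positivity)]
          congr 1
          rw [mul_pow, ← pow_mul, mul_comm (m+1) 2, pow_mul, Real.sq_sqrt (by positivity)]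
          rfl
        have h3 := h.trans h2
        exact (ENNReal.pow_le_pow_left_iff two_ne_zero).1 h3
    _ = _ := by
        rw [Finset.sum_const, Finset.card_univ, Fintype.card_fin, nsmul_eq_mul, mul_assoc,
          ENNReal.ofReal_mul (p := (m:ℝ) + 2) (by positivity)]
        congr 1
        rw [show ((m:ℝ) + 2) = ((m+2 : ℕ) : ℝ) by push_cast; ring, ENNReal.ofReal_natCast]

end Vale.Agent.P156.H144
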