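import Mathlib

open MeasureTheory
open scoped ENNReal BigOperators

namespace Vale.Agent.P156.H144

variable {V : Type*} [MeasurableSpace V]

/-- squared Hilbert-Schmidt norm of a nonnegative kernel -/
noncomputable def hs (π : Measure V) (A : V → V → ℝ≥0∞) : ℝ≥0∞ :=
  ∫⁻ x, ∫⁻ y, (A x y) ^ 2 ∂π ∂π

/-- composition of kernels -/
noncomputable def kcomp (π : Measure V) (A B : V → V → ℝ≥0∞) : V → V → ℝ≥0∞ :=
  fun x z => ∫⁻ y, A x y * B y z ∂π

theorem lintegral_mul_sq_le {α : Type*} [MeasurableSpace α] (μ : Measure α)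
    {f g : α → ℝ≥0∞} (hf : AEMeasurable f μ) (hg : AEMeasurable g μ) :
    (∫⁻ a, f a * g a ∂μ) ^ 2 ≤ (∫⁻ a, f a ^ 2 ∂μ) * (∫⁻ a, g a ^ 2 ∂μ) := by
  have h := ENNReal.lintegral_mul_le_Lp_mul_Lq μ Real.HolderConjugate.two_two hf hg
  have h2 := pow_le_pow_left' h 2
  refine h2.trans ?_
  rw [mul_pow]
  have e : ∀ t : ℝ≥0∞, (t ^ (1 / (2:ℝ))) ^ 2 = t := by
    intro t
    rw [← ENNReal.rpow_natCast, ← ENNReal.rpow_mul]; norm_num
  rw [e, e]
  simp only [ENNReal.rpow_two]
  exact le_rfl

theorem kcomp_measurable (π : Measure V) [SFinite π] {A B : V → V → ℝ≥0∞}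
    (hA : Measurable (Function.uncurry A)) (hB : Measurable (Function.uncurry B)) :
    Measurable (Function.uncurry (kcomp π A B)) := by
  unfold kcomp Function.uncurry
  refine Measurable.lintegral_prod_right' (f := fun q : (V × V) × V =>
    A q.1.1 q.2 * B q.2 q.1.2) ?_
  have h1 : Measurable (fun q : (V × V) × V => (q.1.1, q.2)) := by fun_prop
  have h2 : Measurable (fun q : (V × V) × V => (q.2, q.1.2)) := by fun_prop
  exact (hA.comp h1).mul (hB.comp h2)

theorem hs_kcomp_le (π : Measure V) [SFinite π] {A B : V → V → ℝ≥0∞}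
    (hA : Measurable (Function.uncurry A)) (hB : Measurable (Function.uncurry B)) :
    hs π (kcomp π A B) ≤ hs π A * hs π B := by
  unfold hs kcomp
  have hAx : ∀ x, Measurable (fun y => A x y) := fun x => hA.of_uncurry_left
  have hBz : ∀ z, Measurable (fun y => B y z) := fun z => hB.of_uncurry_right
  calc ∫⁻ x, ∫⁻ z, (∫⁻ y, A x y * B y z ∂π) ^ 2 ∂π ∂π
      ≤ ∫⁻ x, ∫⁻ z, (∫⁻ y, A x y ^ 2 ∂π) * (∫⁻ y, B y z ^ 2 ∂π) ∂π ∂π := by
        refine lintegral_mono fun x => lintegral_mono fun z => ?_
        exact lintegral_mul_sq_le π (hAx x).aemeasurable (hBz z).aemeasurable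
    _ = ∫⁻ x, (∫⁻ y, A x y ^ 2 ∂π) * (∫⁻ z, ∫⁻ y, B y z ^ 2 ∂π ∂π) ∂π := by
        refine lintegral_congr fun x => ?_
        rw [lintegral_const_mul]
        refine Measurable.lintegral_prod_right' (f := fun q : V × V => B q.2 q.1 ^ 2) ?_
        exact (hB.comp measurable_swap).pow_const 2
    _ = (∫⁻ x, (∫⁻ y, A x y ^ 2 ∂π) ∂π) * (∫⁻ z, ∫⁻ y, B y z ^ 2 ∂π ∂π) := by
        rw [lintegral_mul_const]
        refine Measurable.lintegral_prod_right' (f := fun q : V × V => A q.1 q.2 ^ 2) ?_
        exact hA.pow_const 2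
    _ = _ := by
        congr 1
        rw [lintegral_lintegral_swap]
        exact ((hB.comp measurable_swap).pow_const 2).aemeasurable

/-- cyclic product of kernels -/
noncomputable def cycE (m : ℕ) (κ : Fin (m+1) → V → V → ℝ≥0∞) (v : Fin (m+1) → V) : ℝ≥0∞ :=
  (∏ i : Fin m, κ i.castSucc (v i.castSucc) (v i.succ)) * κ (Fin.last m) (v (Fin.last m)) (v 0)

theorem cycE_measurable (m : ℕ) {κ : Fin (m+1) → V → V → ℝ≥0∞}
    (hκ : ∀ j, Measurable (Function.uncurry (κ j))) : Measurable (cycE m κ) := by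
  unfold cycE
  refine Measurable.mul ?_ ?_
  · refine Finset.measurable_prod _ fun i _ => ?_
    have : Measurable (fun v : Fin (m+1) → V => (v i.castSucc, v i.succ)) := by fun_prop
    exact (hκ _).comp this
  · have : Measurable (fun v : Fin (m+1) → V => (v (Fin.last m), v 0)) := by fun_prop
    exact (hκ _).comp this

theorem hs_pi_one (π : Measure V) [SigmaFinite π] {A : V → V → ℝ≥0∞}
    (hA : Measurable (Function.uncurry A)) :
    ∫⁻ q : V × (Fin 1 → V), A q.1 (q.2 0) ^ 2 ∂(π.prod (Measure.pi fun _ => π)) = hs π A := by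
  have hm : Measurable (fun q : V × (Fin 1 → V) => A q.1 (q.2 0) ^ 2) := by
    have hb : Measurable (fun q : V × (Fin 1 → V) => (q.1, q.2 0)) := by fun_prop
    exact (hA.comp hb).pow_const 2
  rw [lintegral_prod _ hm.aemeasurable]
  unfold hs
  refine lintegral_congr fun x => ?_
  have e := measurePreserving_funUnique π (Fin 1)
  rw [← e.lintegral_comp ((hA.of_uncurry_left).pow_const 2)]
  rfl

theorem hs_pi_one' (π : Measure V) [SigmaFinite π] {A : V → V → ℝ≥0∞}
    (hA : Measurable (Function.uncurry A)) :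
    ∫⁻ q : V × (Fin 1 → V), A (q.2 0) q.1 ^ 2 ∂(π.prod (Measure.pi fun _ => π)) = hs π A := by
  have h := hs_pi_one π (A := fun x y => A y x) (hA.comp measurable_swap)
  rw [h]
  unfold hs
  rw [lintegral_lintegral_swap]
  exact ((hA.comp measurable_swap).pow_const 2).aemeasurable

theorem pisucc_fst (n : ℕ) (v : Fin (n+1) → V) :
    (MeasurableEquiv.piFinSuccAbove (fun _ => V) (Fin.last n) v).1 = v (Fin.last n) := rfl

theorem pisucc_snd (n : ℕ) (v : Fin (n+1) → V) (j : Fin n) :
    (MeasurableEquiv.piFinSuccAbove (fun _ => V) (Fin.last n) v).2 j = v j.castSucc := by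
  change v ((Fin.last n).succAbove j) = _
  rw [Fin.succAbove_last]

theorem lintegral_cycE_sq_le (π : Measure V) [SigmaFinite π] (m : ℕ) :
    ∀ (κ : Fin (m+2) → V → V → ℝ≥0∞), (∀ j, Measurable (Function.uncurry (κ j))) →
    (∫⁻ v, cycE (m+1) κ v ∂(Measure.pi fun _ => π)) ^ 2 ≤ ∏ j, hs π (κ j) := by
  induction m with
  | zero =>
    intro κ hκ
    have e := (measurePreserving_piFinSuccAbove (fun _ : Fin 2 => π) (Fin.last 1))
    have ha : Measurable (fun q : V × (Fin 1 → V) => κ 0 (q.2 0) q.1) := by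
      have ha : Measurable (fun q : V × (Fin 1 → V) => (q.2 0, q.1)) := by fun_prop
      exact (hκ 0).comp ha
    have hb : Measurable (fun q : V × (Fin 1 → V) => κ 1 q.1 (q.2 0)) := by
      have hb : Measurable (fun q : V × (Fin 1 → V) => (q.1, q.2 0)) := by fun_prop
      exact (hκ 1).comp hb
    have h1 : ∫⁻ v, cycE 1 κ v ∂(Measure.pi fun _ => π)
        = ∫⁻ q : V × (Fin 1 → V), κ 0 (q.2 0) q.1 * κ 1 q.1 (q.2 0)
            ∂(π.prod (Measure.pi fun _ => π)) := by
      have := e.lintegral_comp (f := fun q : V × (Fin 1 → V) => κ 0 (q.2 0) q.1 * κ 1 q.1 (q.2 0))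
        (ha.mul hb)
      rw [← this]
      refine lintegral_congr fun v => ?_
      rw [pisucc_fst, pisucc_snd]
      simp [cycE]
    rw [h1]
    refine (lintegral_mul_sq_le _ ha.aemeasurable hb.aemeasurable).trans ?_
    rw [Fin.prod_univ_two, hs_pi_one π (hκ 1), hs_pi_one' π (hκ 0)]
  | succ m ih =>
    intro κ hκ
    have e := (measurePreserving_piFinSuccAbove (fun _ : Fin (m+3) => π) (Fin.last (m+2)))
    -- merged kernels
    let κ' : Fin (m+2) → V → V → ℝ≥0∞ := fun j =>
      if j = Fin.last (m+1) then kcomp π (κ (Fin.last (m+1)).castSucc) (κ (Fin.last (m+2)))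
      else κ j.castSucc
    have hκ' : ∀ j, Measurable (Function.uncurry (κ' j)) := by
      intro j
      by_cases hj : j = Fin.last (m+1)
      · simp only [κ', hj, if_true]
        exact kcomp_measurable π (hκ _) (hκ _)
      · simp only [κ', hj, if_false]
        exact hκ _
    have hG : Measurable (fun q : V × (Fin (m+2) → V) =>
        (∏ i : Fin (m+1), κ i.castSucc.castSucc (q.2 i.castSucc) (q.2 i.succ)) *
          (κ (Fin.last (m+1)).castSucc (q.2 (Fin.last (m+1))) q.1 *
            κ (Fin.last (m+2)) q.1 (q.2 0))) := by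
      refine Measurable.mul ?_ (Measurable.mul ?_ ?_)
      · refine Finset.measurable_prod _ fun i _ => ?_
        have : Measurable (fun q : V × (Fin (m+2) → V) => (q.2 i.castSucc, q.2 i.succ)) := by
          fun_prop
        exact (hκ _).comp this
      · have : Measurable (fun q : V × (Fin (m+2) → V) => (q.2 (Fin.last (m+1)), q.1)) := by
          fun_prop
        exact (hκ _).comp this
      · have : Measurable (fun q : V × (Fin (m+2) → V) => (q.1, q.2 0)) := by
          fun_prop
        exact (hκ _).comp this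
    have h1 : ∫⁻ v, cycE (m+2) κ v ∂(Measure.pi fun _ => π)
        = ∫⁻ q : V × (Fin (m+2) → V),
          (∏ i : Fin (m+1), κ i.castSucc.castSucc (q.2 i.castSucc) (q.2 i.succ)) *
          (κ (Fin.last (m+1)).castSucc (q.2 (Fin.last (m+1))) q.1 *
            κ (Fin.last (m+2)) q.1 (q.2 0))
            ∂(π.prod (Measure.pi fun _ => π)) := by
      rw [← e.lintegral_comp hG]
      refine lintegral_congr fun v => ?_
      rw [cycE, Fin.prod_univ_castSucc, mul_assoc]
      simp only [pisucc_fst, pisucc_snd]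
      rfl
    have h2 : ∫⁻ v, cycE (m+2) κ v ∂(Measure.pi fun _ => π)
        = ∫⁻ w, cycE (m+1) κ' w ∂(Measure.pi fun _ => π) := by
      rw [h1, lintegral_prod_symm _ hG.aemeasurable]
      refine lintegral_congr fun w => ?_
      simp only []
      rw [lintegral_const_mul (f := fun x => κ (Fin.last (m + 1)).castSucc (w (Fin.last (m + 1))) x *
          κ (Fin.last (m + 2)) x (w 0))]
      · unfold cycE
        congr 1
        · refine Finset.prod_congr rfl fun i _ => ?_
          have : (i.castSucc : Fin (m+2)) ≠ Fin.last (m+1) := (Fin.castSucc_lt_last i).ne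
          simp only [κ', this, if_false]
        · simp only [κ', if_true]
          rfl
      · have h3 : Measurable (fun x : V => (w (Fin.last (m+1)), x)) := by fun_prop
        have h4 : Measurable (fun x : V => (x, w 0)) := by fun_prop
        exact ((hκ _).comp h3).mul ((hκ _).comp h4)
    rw [h2]
    refine (ih κ' hκ').trans ?_
    rw [Fin.prod_univ_castSucc, Fin.prod_univ_castSucc (n := m+2), Fin.prod_univ_castSucc (n := m+1), mul_assoc]
    refine mul_le_mul' (le_of_eq ?_) ?_
    · refine Finset.prod_congr rfl fun i _ => ?_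
      have : (i.castSucc : Fin (m+2)) ≠ Fin.last (m+1) := (Fin.castSucc_lt_last i).ne
      simp only [κ', this, if_false]
    · simp only [κ', if_true]
      exact hs_kcomp_le π (hκ _) (hκ _)

end Vale.Agent.P156.H144
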