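import Vale.Agent.P156.H144.Mean

open MeasureTheory ProbabilityTheory
open scoped ENNReal BigOperators

namespace Vale.Agent.P156.H144

variable {V : Type*} [MeasurableSpace V] {ι : Type*} [Fintype ι]

/-- orthonormal system of measurable functions in `L²(π)` -/
structure OrthoSys (π : Measure V) (φ : ι → V → ℝ) : Prop where
  meas : ∀ i, Measurable (φ i)
  int : ∀ i j, Integrable (fun x => φ i x * φ j x) π
  norm : ∀ i, ∫ x, φ i x * φ i x ∂π = 1
  orth : ∀ i j, i ≠ j → ∫ x, φ i x * φ j x ∂π = 0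

omit [Fintype ι] in
theorem OrthoSys.eq_ite [DecidableEq ι] {π : Measure V} {φ : ι → V → ℝ} (h : OrthoSys π φ)
    (i j : ι) : ∫ x, φ i x * φ j x ∂π = if i = j then 1 else 0 := by
  by_cases hij : i = j
  · subst hij; rw [if_pos rfl]; exact h.norm i
  · rw [if_neg hij]; exact h.orth i j hij

theorem hs_kerU (π : Measure V) [IsProbabilityMeasure π] {φ : ι → V → ℝ}
    (hφ : OrthoSys π φ) (u : ι → ℝ) :
    hs π (fun x y => ENNReal.ofReal |kerU u φ x y|) = ENNReal.ofReal (∑ i, u i ^ 2) := by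
  classical
  have h1 : ∀ x y, (kerU u φ x y)^2 = ∑ i, ∑ j, (u i * φ i x * (u j * φ j x)) * (φ i y * φ j y) := by
    intro x y
    rw [kerU, sq, Finset.sum_mul_sum]
    refine Finset.sum_congr rfl fun i _ => Finset.sum_congr rfl fun j _ => ?_
    ring
  have hint : ∀ x, Integrable (fun y => (kerU u φ x y)^2) π := by
    intro x
    simp_rw [h1]
    refine integrable_finsetSum _ fun i _ => integrable_finsetSum _ fun j _ => ?_
    exact (hφ.int i j).const_mul _
  have h2 : ∀ x, ∫ y, (kerU u φ x y)^2 ∂π = ∑ i, u i ^ 2 * (φ i x * φ i x) := by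
    intro x
    simp_rw [h1]
    rw [integral_finsetSum _ fun i _ => integrable_finsetSum _ fun j _ =>
      (hφ.int i j).const_mul _]
    refine Finset.sum_congr rfl fun i _ => ?_
    rw [integral_finsetSum _ fun j _ => (hφ.int i j).const_mul _]
    simp_rw [integral_const_mul, hφ.eq_ite]
    simp only [mul_ite, mul_one, mul_zero, Finset.sum_ite_eq, Finset.mem_univ, if_true]
    ring
  have h3 : ∀ x, ∫⁻ y, (ENNReal.ofReal |kerU u φ x y|)^2 ∂π
      = ENNReal.ofReal (∑ i, u i ^ 2 * (φ i x * φ i x)) := by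
    intro x
    rw [← h2 x, ofReal_integral_eq_lintegral_ofReal (hint x)
      (Filter.Eventually.of_forall fun y => sq_nonneg _)]
    refine lintegral_congr fun y => ?_
    rw [← ENNReal.ofReal_pow (abs_nonneg _), sq_abs]
  unfold hs
  simp_rw [h3]
  rw [← ofReal_integral_eq_lintegral_ofReal]
  · congr 1
    rw [integral_finsetSum _ fun i _ => (hφ.int i i).const_mul _]
    refine Finset.sum_congr rfl fun i _ => ?_
    rw [integral_const_mul, hφ.norm, mul_one]
  · exact integrable_finsetSum _ fun i _ => (hφ.int i i).const_mul _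
  · exact Filter.Eventually.of_forall fun x => Finset.sum_nonneg fun i _ =>
      mul_nonneg (sq_nonneg _) (mul_self_nonneg _)

omit [MeasurableSpace V] in
theorem abs_cyc_le (m : ℕ) {k : V → V → ℝ} {B : ℝ} (hb : ∀ x y, |k x y| ≤ B)
    (v : Fin (m+1) → V) : |cyc m k v| ≤ B ^ (m+1) := by
  rw [cyc_eq_prod, Finset.abs_prod]
  calc ∏ j, |k (v j) (v (j+1))| ≤ ∏ _j : Fin (m+1), B :=
        Finset.prod_le_prod (fun j _ => abs_nonneg _) (fun j _ => hb _ _)
    _ = B^(m+1) := by rw [Finset.prod_const, Finset.card_univ, Fintype.card_fin]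

theorem integral_cyc_sub_le (π : Measure V) [IsProbabilityMeasure π] (m : ℕ)
    {k k' : V → V → ℝ} (hk : Measurable (Function.uncurry k))
    (hk' : Measurable (Function.uncurry k')) {δ M : ℝ} (hδ : 0 ≤ δ)
    (hkM : hs π (fun x y => ENNReal.ofReal |k x y|) ≤ ENNReal.ofReal (M^2))
    (hd : hs π (fun x y => ENNReal.ofReal |k x y - k' x y|) ≤ ENNReal.ofReal (δ^2)) :
    ∫ v, |cyc (m+1) k v - cyc (m+1) k' v| ∂(Measure.pi fun _ : Fin (m+2) => π)
      ≤ (m+2) * δ * (Real.sqrt (8 * M^2 + 2 * δ^2))^(m+1) := by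
  rw [integral_eq_lintegral_of_nonneg_ae (Filter.Eventually.of_forall fun v => abs_nonneg _)]
  · refine ENNReal.toReal_le_of_le_ofReal (by positivity) ?_
    exact lintegral_cyc_sub_le π m hk hk' hδ hkM hd
  · exact ((cyc_measurable (m+1) hk).sub (cyc_measurable (m+1) hk')).abs.aestronglyMeasurable

/-- **G-A**: the block average of cyclic products of `G|_v` determines the power sums. -/
theorem blkT_L1 (π : Measure V) [IsProbabilityMeasure π] {φ : ι → V → ℝ}
    (hφ : OrthoSys π φ) (u : ι → ℝ) {M : ℝ} (hM : ∑ i, u i ^ 2 ≤ M ^ 2)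
    {k' : V → V → ℝ} (hk' : Measurable (Function.uncurry k')) {M' : ℝ} (hM' : 0 ≤ M')
    (hb : ∀ x y, |k' x y| ≤ M') {δ : ℝ} (hδ : 0 ≤ δ)
    (hd : hs π (fun x y => ENNReal.ofReal |kerU u φ x y - k' x y|) ≤ ENNReal.ofReal (δ^2))
    {m N mm : ℕ} (hN : 0 < N) (hm : m + 1 + 1 ≤ mm) :
    Integrable (blkT (m+1) N mm hm (kerU u φ)) (Measure.pi fun _ : Fin N × Fin mm => π) ∧
    ∫ v, |blkT (m+1) N mm hm (kerU u φ) v - ∑ i, u i ^ (m+2)|
        ∂(Measure.pi fun _ : Fin N × Fin mm => π)
      ≤ 2 * ((m+2) * δ * (Real.sqrt (8 * M^2 + 2 * δ^2))^(m+1)) + M' ^ (m+2) / Real.sqrt N := by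
  classical
  have hk : Measurable (Function.uncurry (kerU u φ)) := kerU_measurable hφ.meas
  have hkM : hs π (fun x y => ENNReal.ofReal |kerU u φ x y|) ≤ ENNReal.ofReal (M^2) := by
    rw [hs_kerU π hφ]; exact ENNReal.ofReal_le_ofReal hM
  have hA := integral_cyc_sub_le π m hk hk' hδ hkM hd
  set A : ℝ := (m+2) * δ * (Real.sqrt (8 * M^2 + 2 * δ^2))^(m+1) with hAdef
  have hNr : (0:ℝ) < N := by exact_mod_cast hN
  set μ := (Measure.pi fun _ : Fin N × Fin mm => π) with hμ
  set ν := (Measure.pi fun _ : Fin (m+2) => π) with hν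
  -- integrability of the cyclic products
  have hI : Integrable (cyc (m+1) (kerU u φ)) ν := cyc_kerU_integrable π (m+1) u φ hφ.int
  have hI' : Integrable (cyc (m+1) k') ν := by
    refine Integrable.of_bound (cyc_measurable (m+1) hk').aestronglyMeasurable (M' ^ (m+2))
      (Filter.Eventually.of_forall fun v => ?_)
    rw [Real.norm_eq_abs]
    exact abs_cyc_le (m+1) hb v
  have hmp : ∀ b : Fin N, MeasurePreserving
      (fun (v : Fin N × Fin mm → V) => fun j : Fin (m+2) => v (b, Fin.castLE hm j)) μ ν := by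
    intro b
    refine mp_comp_inj (κ := Fin N × Fin mm) (κ' := Fin (m+2)) π
      (fun j : Fin (m+2) => (b, Fin.castLE hm j)) ?_
    intro i j hij
    simpa using hij
  have hIb : ∀ b : Fin N, Integrable (fun v : Fin N × Fin mm → V =>
      cyc (m+1) (kerU u φ) (fun j => v (b, Fin.castLE hm j))) μ := fun b =>
    (hmp b).integrable_comp_of_integrable hI
  have hIb' : ∀ b : Fin N, Integrable (fun v : Fin N × Fin mm → V =>
      cyc (m+1) k' (fun j => v (b, Fin.castLE hm j))) μ := fun b =>
    (hmp b).integrable_comp_of_integrable hI'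
  have hT : Integrable (blkT (m+1) N mm hm (kerU u φ)) μ := by
    unfold blkT
    exact (integrable_finsetSum _ fun b _ => hIb b).const_mul _
  have hT' : Integrable (blkT (m+1) N mm hm k') μ := by
    unfold blkT
    exact (integrable_finsetSum _ fun b _ => hIb' b).const_mul _
  refine ⟨hT, ?_⟩
  set c := ∫ w, cyc (m+1) k' w ∂ν with hc
  -- three terms
  have t1 : ∫ v, |blkT (m+1) N mm hm (kerU u φ) v - blkT (m+1) N mm hm k' v| ∂μ ≤ A := by
    have hpt : ∀ v, |blkT (m+1) N mm hm (kerU u φ) v - blkT (m+1) N mm hm k' v|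
        ≤ (1/(N:ℝ)) * ∑ b : Fin N, |cyc (m+1) (kerU u φ) (fun j => v (b, Fin.castLE hm j))
          - cyc (m+1) k' (fun j => v (b, Fin.castLE hm j))| := by
      intro v
      unfold blkT
      rw [← mul_sub, ← Finset.sum_sub_distrib, abs_mul, abs_of_pos (by positivity : (0:ℝ) < 1/N)]
      exact mul_le_mul_of_nonneg_left (Finset.abs_sum_le_sum_abs _ _) (by positivity)
    have hIabs : ∀ b : Fin N, Integrable (fun v : Fin N × Fin mm → V =>
        |cyc (m+1) (kerU u φ) (fun j => v (b, Fin.castLE hm j))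
          - cyc (m+1) k' (fun j => v (b, Fin.castLE hm j))|) μ := fun b =>
      ((hIb b).sub (hIb' b)).abs
    refine (integral_mono (hT.sub hT').abs
      ((integrable_finsetSum _ fun b _ => hIabs b).const_mul _) hpt).trans ?_
    rw [integral_const_mul, integral_finsetSum _ fun b _ => hIabs b]
    have : ∀ b : Fin N, ∫ v, |cyc (m+1) (kerU u φ) (fun j => v (b, Fin.castLE hm j))
          - cyc (m+1) k' (fun j => v (b, Fin.castLE hm j))| ∂μ
        = ∫ v, |cyc (m+1) (kerU u φ) v - cyc (m+1) k' v| ∂ν := by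
      intro b
      rw [← (hmp b).map_eq, integral_map (hmp b).measurable.aemeasurable]
      exact ((cyc_measurable (m+1) hk).sub (cyc_measurable (m+1) hk')).abs.aestronglyMeasurable
    rw [Finset.sum_congr rfl fun b _ => this b]
    simp only [Finset.sum_const, Finset.card_univ, Fintype.card_fin, nsmul_eq_mul]
    rw [← mul_assoc, one_div, inv_mul_cancel₀ hNr.ne', one_mul]
    exact hA
  have t2 : ∫ v, |blkT (m+1) N mm hm k' v - c| ∂μ ≤ M' ^ (m+2) / Real.sqrt N :=
    blk_lln π hN hm (cyc (m+1) k') (cyc_measurable (m+1) hk') (by positivity)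
      (fun w => abs_cyc_le (m+1) hb w)
  have t3 : |c - ∑ i, u i ^ (m+2)| ≤ A := by
    rw [← cyc_kerU_integral π (m+1) u φ hφ.int hφ.eq_ite, hc, ← integral_sub hI' hI]
    refine (abs_integral_le_integral_abs).trans ?_
    refine le_trans (le_of_eq ?_) hA
    refine integral_congr_ae (Filter.Eventually.of_forall fun v => ?_)
    exact abs_sub_comm _ _
  calc ∫ v, |blkT (m+1) N mm hm (kerU u φ) v - ∑ i, u i ^ (m+2)| ∂μ
      ≤ ∫ v, (|blkT (m+1) N mm hm (kerU u φ) v - blkT (m+1) N mm hm k' v|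
          + |blkT (m+1) N mm hm k' v - c| + |c - ∑ i, u i ^ (m+2)|) ∂μ := by
        refine integral_mono (hT.sub (integrable_const _)).abs
          (((hT.sub hT').abs.add (hT'.sub (integrable_const _)).abs).add (integrable_const _)) ?_
        intro v
        have e : blkT (m+1) N mm hm (kerU u φ) v - ∑ i, u i ^ (m+2)
          = (blkT (m+1) N mm hm (kerU u φ) v - blkT (m+1) N mm hm k' v)
            + (blkT (m+1) N mm hm k' v - c) + (c - ∑ i, u i ^ (m+2)) := by ring
        simp only
        rw [e]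
        exact (abs_add_le _ _).trans (add_le_add (abs_add_le _ _) le_rfl)
    _ = ∫ v, |blkT (m+1) N mm hm (kerU u φ) v - blkT (m+1) N mm hm k' v| ∂μ
          + ∫ v, |blkT (m+1) N mm hm k' v - c| ∂μ + |c - ∑ i, u i ^ (m+2)| := by
        rw [integral_add, integral_add]
        · simp
        · exact (hT.sub hT').abs
        · exact (hT'.sub (integrable_const _)).abs
        · exact (hT.sub hT').abs.add (hT'.sub (integrable_const _)).abs
        · exact integrable_const _
    _ ≤ A + M' ^ (m+2) / Real.sqrt N + A := by gcongr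
    _ = 2 * A + M' ^ (m+2) / Real.sqrt N := by ring

end Vale.Agent.P156.H144
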