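import Vale.Agent.P156.H144.Blk

open MeasureTheory ProbabilityTheory
open scoped ENNReal BigOperators

namespace Vale.Agent.P156.H144

variable {V : Type*} [MeasurableSpace V] {ι : Type*} [Fintype ι]

/-- finite rank kernel -/
def kerU (u : ι → ℝ) (φ : ι → V → ℝ) (v w : V) : ℝ := ∑ i, u i * φ i v * φ i w

theorem kerU_measurable {u : ι → ℝ} {φ : ι → V → ℝ} (hφ : ∀ i, Measurable (φ i)) :
    Measurable (Function.uncurry (kerU u φ)) := by
  unfold kerU Function.uncurry
  refine Finset.measurable_sum _ fun i _ => ?_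
  have h1 : Measurable (fun p : V × V => φ i p.1) := (hφ i).comp measurable_fst
  have h2 : Measurable (fun p : V × V => φ i p.2) := (hφ i).comp measurable_snd
  exact (h1.const_mul _).mul h2

omit [MeasurableSpace V] in
theorem cyc_kerU [DecidableEq ι] (m : ℕ) (u : ι → ℝ) (φ : ι → V → ℝ) (v : Fin (m+1) → V) :
    cyc m (kerU u φ) v = ∑ c : Fin (m+1) → ι, (∏ j, u (c j)) *
      ∏ l, (φ (c l) (v l) * φ (c (l-1)) (v l)) := by
  rw [cyc_eq_prod]
  unfold kerU
  rw [Finset.prod_univ_sum]
  rw [Fintype.piFinset_univ]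
  refine Finset.sum_congr rfl fun c _ => ?_
  rw [Finset.prod_mul_distrib, Finset.prod_mul_distrib, Finset.prod_mul_distrib, mul_assoc]
  congr 2
  rw [← Equiv.prod_comp (Equiv.addRight (1 : Fin (m+1))) (fun l => φ (c (l-1)) (v l))]
  refine Finset.prod_congr rfl fun l _ => ?_
  simp

theorem cyc_kerU_integrable [DecidableEq ι] (π : Measure V) [IsProbabilityMeasure π] (m : ℕ)
    (u : ι → ℝ) (φ : ι → V → ℝ)
    (hint : ∀ i j, Integrable (fun x => φ i x * φ j x) π) :
    Integrable (cyc m (kerU u φ)) (Measure.pi fun _ : Fin (m+1) => π) := by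
  have : cyc m (kerU u φ) = fun v => ∑ c : Fin (m+1) → ι, (∏ j, u (c j)) *
      ∏ l, (φ (c l) (v l) * φ (c (l-1)) (v l)) := by
    funext v; exact cyc_kerU m u φ v
  rw [this]
  refine integrable_finsetSum _ fun c _ => ?_
  refine Integrable.const_mul ?_ _
  exact Integrable.fintype_prod (f := fun l x => φ (c l) x * φ (c (l-1)) x) fun l => hint _ _

theorem cyc_kerU_integral [DecidableEq ι] (π : Measure V) [IsProbabilityMeasure π] (m : ℕ)
    (u : ι → ℝ) (φ : ι → V → ℝ)
    (hint : ∀ i j, Integrable (fun x => φ i x * φ j x) π)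
    (horth : ∀ i j, ∫ x, φ i x * φ j x ∂π = if i = j then 1 else 0) :
    ∫ v, cyc m (kerU u φ) v ∂(Measure.pi fun _ : Fin (m+1) => π) = ∑ i, u i ^ (m+1) := by
  have : cyc m (kerU u φ) = fun v => ∑ c : Fin (m+1) → ι, (∏ j, u (c j)) *
      ∏ l, (φ (c l) (v l) * φ (c (l-1)) (v l)) := by
    funext v; exact cyc_kerU m u φ v
  rw [this, integral_finsetSum]
  · have h1 : ∀ c : Fin (m+1) → ι,
        ∫ v, (∏ j, u (c j)) * ∏ l, (φ (c l) (v l) * φ (c (l-1)) (v l))
          ∂(Measure.pi fun _ : Fin (m+1) => π)
        = if (∀ l, c l = c (l-1)) then ∏ j, u (c j) else 0 := by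
      intro c
      rw [integral_const_mul,
        integral_fintype_prod_eq_prod (f := fun l x => φ (c l) x * φ (c (l-1)) x)]
      by_cases h : ∀ l, c l = c (l-1)
      · rw [if_pos h]
        have : ∏ l, ∫ x, φ (c l) x * φ (c (l-1)) x ∂π = 1 := by
          refine Finset.prod_eq_one fun l _ => ?_
          rw [horth, if_pos (h l)]
        rw [this, mul_one]
      · rw [if_neg h]
        push Not at h
        obtain ⟨l, hl⟩ := h
        have : ∏ l, ∫ x, φ (c l) x * φ (c (l-1)) x ∂π = 0 := by
          refine Finset.prod_eq_zero (Finset.mem_univ l) ?_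
          rw [horth, if_neg hl]
        rw [this, mul_zero]
    rw [Finset.sum_congr rfl fun c _ => h1 c]
    rw [← Finset.sum_filter]
    have h2 : (Finset.univ.filter fun c : Fin (m+1) → ι => ∀ l, c l = c (l-1))
        = Finset.univ.map ⟨fun i : ι => (fun _ : Fin (m+1) => i), fun a b hab => by
            simpa using congrFun hab 0⟩ := by
      ext c
      simp only [Finset.mem_filter, Finset.mem_univ, true_and, Finset.mem_map]
      constructor
      · intro h
        refine ⟨c 0, ?_⟩
        funext l
        have hs : ∀ (n : ℕ) (hn : n < m+1), c ⟨n, hn⟩ = c 0 := by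
          intro n
          induction n with
          | zero => intro _; rfl
          | succ n ih =>
            intro hn
            rw [h ⟨n+1, hn⟩]
            have : (⟨n+1, hn⟩ - 1 : Fin (m+1)) = ⟨n, by omega⟩ := by
              rw [sub_eq_iff_eq_add]
              ext
              simp [Fin.val_add]
              rw [Nat.mod_eq_of_lt]
              · omega
            rw [this]
            exact ih (by omega)
        exact (hs l.1 l.2).symm
      · rintro ⟨i, rfl⟩ l
        rfl
    rw [h2, Finset.sum_map]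
    refine Finset.sum_congr rfl fun i _ => ?_
    change ∏ _j : Fin (m+1), u i = u i ^ (m+1)
    rw [Finset.prod_const, Finset.card_univ, Fintype.card_fin]
  · intro c _
    refine Integrable.const_mul ?_ _
    exact Integrable.fintype_prod (f := fun l x => φ (c l) x * φ (c (l-1)) x) fun l => hint _ _

/-- restriction to injectively embedded coordinates -/
theorem mp_comp_inj {κ κ' : Type*} [Fintype κ] [Fintype κ'] (π : Measure V)
    [IsProbabilityMeasure π] (e : κ' → κ) (he : Function.Injective e) :
    MeasurePreserving (fun (v : κ → V) => fun j => v (e j)) (Measure.pi fun _ => π)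
      (Measure.pi fun _ => π) := by
  refine ⟨by fun_prop, ?_⟩
  have h : iIndepFun (fun (i : κ) (v : κ → V) => v i) (Measure.pi fun _ => π) :=
    iIndepFun_pi (X := fun _ => id) (fun _ => aemeasurable_id)
  have h2 := h.precomp he
  have h3 := h2.map_fun_eq_pi_map (fun j => (measurable_pi_apply (e j)).aemeasurable)
  refine h3.trans ?_
  congr 1
  funext j
  exact (measurePreserving_eval (fun _ => π) (e j)).map_eq


/-- law of large numbers for bounded block averages -/
theorem blk_lln (π : Measure V) [IsProbabilityMeasure π] {N mm m : ℕ} (hN : 0 < N)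
    (hm : m + 1 ≤ mm) (h : (Fin (m+1) → V) → ℝ) (hh : Measurable h) {B : ℝ} (hB : 0 ≤ B)
    (hb : ∀ w, |h w| ≤ B) :
    ∫ v, |(1 / (N:ℝ)) * ∑ b : Fin N, h (fun j => v (b, Fin.castLE hm j))
        - ∫ w, h w ∂(Measure.pi fun _ : Fin (m+1) => π)| ∂(Measure.pi fun _ : Fin N × Fin mm => π)
      ≤ B / Real.sqrt N := by
  classical
  set μ := (Measure.pi fun _ : Fin N × Fin mm => π) with hμ
  set X : Fin N → (Fin N × Fin mm → V) → ℝ := fun b v => h (fun j => v (b, Fin.castLE hm j)) with hX
  have hXm : ∀ b, Measurable (X b) := by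
    intro b
    have : Measurable (fun (v : Fin N × Fin mm → V) => fun j : Fin (m+1) => v (b, Fin.castLE hm j)) := by
      fun_prop
    exact hh.comp this
  have hXb : ∀ b v, |X b v| ≤ B := fun b v => hb _
  have hXL : ∀ b, MemLp (X b) 2 μ := fun b =>
    MemLp.of_bound (hXm b).aestronglyMeasurable B (Filter.Eventually.of_forall fun v => by
      rw [Real.norm_eq_abs]; exact hXb b v)
  have hmean : ∀ b, ∫ v, X b v ∂μ = ∫ w, h w ∂(Measure.pi fun _ : Fin (m+1) => π) := by
    intro b
    have he : Function.Injective (fun j : Fin (m+1) => ((b, Fin.castLE hm j) : Fin N × Fin mm)) := by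
      intro i j hij
      simpa using hij
    have := mp_comp_inj (κ := Fin N × Fin mm) (κ' := Fin (m+1)) π _ he
    rw [← this.map_eq, integral_map this.measurable.aemeasurable hh.aestronglyMeasurable]
  have hind : ∀ b c, b ≠ c → IndepFun (X b) (X c) μ := by
    intro b c hbc
    have hI : iIndepFun (fun (i : Fin N × Fin mm) (v : Fin N × Fin mm → V) => v i) μ :=
      iIndepFun_pi (X := fun _ => id) (fun _ => aemeasurable_id)
    let S : Fin N → Finset (Fin N × Fin mm) := fun b => Finset.univ.filter (fun p => p.1 = b)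
    have hd : Disjoint (S b) (S c) := by
      rw [Finset.disjoint_left]
      intro p hp hp'
      simp only [S, Finset.mem_filter, Finset.mem_univ, true_and] at hp hp'
      exact hbc (hp.symm.trans hp')
    have h1 := hI.indepFun_finset (S b) (S c) hd (fun i => measurable_pi_apply i)
    have hmem : ∀ (a : Fin N) (j : Fin (m+1)), (a, Fin.castLE hm j) ∈ S a := by
      intro a j; simp [S]
    have hg : ∀ a : Fin N, Measurable (fun w : (S a) → V => h (fun j => w ⟨_, hmem a j⟩)) := by
      intro a
      have : Measurable (fun (w : (S a) → V) => fun j : Fin (m+1) => w ⟨_, hmem a j⟩) := by fun_prop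
      exact hh.comp this
    exact h1.comp (hg b) (hg c)
  have hvar : variance (∑ b, X b) μ ≤ N * B^2 := by
    rw [IndepFun.variance_sum (fun b _ => hXL b) (fun b _ c _ hbc => hind b c hbc)]
    calc ∑ b : Fin N, variance (X b) μ ≤ ∑ _b : Fin N, B^2 := by
          refine Finset.sum_le_sum fun b _ => ?_
          refine (variance_le_expectation_sq (hXm b).aestronglyMeasurable).trans ?_
          calc ∫ v, ((X b)^2) v ∂μ ≤ ∫ _v, B^2 ∂μ := by
                refine integral_mono ?_ (integrable_const _) fun v => ?_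
                · exact (hXL b).integrable_sq
                · change (X b v)^2 ≤ B^2
                  rw [← sq_abs]
                  exact pow_le_pow_left₀ (abs_nonneg _) (hXb b v) 2
            _ = B^2 := by simp
      _ = N * B^2 := by simp
  have hNr : (0:ℝ) < N := by exact_mod_cast hN
  set c := ∫ w, h w ∂(Measure.pi fun _ : Fin (m+1) => π) with hc
  have hsum : MemLp (∑ b, X b) 2 μ := memLp_finsetSum' _ fun b _ => hXL b
  set Z : (Fin N × Fin mm → V) → ℝ := fun v => (1 / (N:ℝ)) * (∑ b, X b) v with hZ
  have hZL : MemLp Z 2 μ := hsum.const_mul _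
  have hZmean : ∫ v, Z v ∂μ = c := by
    simp only [hZ, Finset.sum_apply]
    rw [integral_const_mul, integral_finsetSum _ fun b _ => (hXL b).integrable one_le_two]
    rw [Finset.sum_congr rfl fun b _ => hmean b]
    simp only [Finset.sum_const, Finset.card_univ, Fintype.card_fin, nsmul_eq_mul]
    field_simp
  have hZvar : variance Z μ ≤ B^2 / N := by
    have : variance Z μ = (1/(N:ℝ))^2 * variance (∑ b, X b) μ := variance_const_mul _ _ _
    rw [this]
    calc (1/(N:ℝ))^2 * variance (∑ b, X b) μ ≤ (1/(N:ℝ))^2 * (N * B^2) := by gcongr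
      _ = B^2 / N := by field_simp
  set W : (Fin N × Fin mm → V) → ℝ := fun v => |Z v - c| with hW
  have hWL : MemLp W 2 μ := (hZL.sub (memLp_const c)).norm
  have hW2 : ∫ v, W v ^ 2 ∂μ = variance Z μ := by
    rw [variance_eq_integral hZL.aestronglyMeasurable.aemeasurable, hZmean]
    refine integral_congr_ae (Filter.Eventually.of_forall fun v => ?_)
    simp only [hW, sq_abs]
  have h5 : (∫ v, W v ∂μ)^2 ≤ B^2 / N := by
    have h6 := variance_nonneg W μ
    rw [variance_eq_sub hWL] at h6
    have h7 : μ[W^2] = ∫ v, W v ^ 2 ∂μ := rfl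
    rw [h7, hW2] at h6
    linarith
  have h8 : ∫ v, W v ∂μ ≤ B / Real.sqrt N := by
    refine abs_le_of_sq_le_sq' ?_ (by positivity) |>.2
    rw [div_pow, Real.sq_sqrt hNr.le]
    exact h5
  have h9 : (fun v : Fin N × Fin mm → V => |(1 / (N:ℝ)) * ∑ b : Fin N, h (fun j => v (b, Fin.castLE hm j))
        - c|) = W := by
    funext v
    simp only [hW, hZ, Finset.sum_apply, hX]
  rw [h9]
  exact h8

end Vale.Agent.P156.H144
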