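import Vale.Agent.P156.H490.Avg

/-! Regular graphs exist: circulant graphs. -/

open Finset Filter

namespace Vale.Agent.P156.H144

theorem exists_symm_set (n : ℕ) [NeZero n] : ∀ d : ℕ, d < n → Even (n * d) →
    ∃ S : Finset (ZMod n), (0 : ZMod n) ∉ S ∧ (∀ x ∈ S, -x ∈ S) ∧ S.card = d
  | 0, _, _ => ⟨∅, by simp, by simp, rfl⟩
  | 1, h1, h2 => by
    obtain ⟨k, hk⟩ : Even n := by simpa using h2
    have hkn : k < n := by omega
    have hval : ((k : ZMod n)).val = k := by
      rw [ZMod.val_natCast, Nat.mod_eq_of_lt hkn]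
    refine ⟨{(k : ZMod n)}, ?_, ?_, by simp⟩
    · rw [Finset.mem_singleton]
      intro h
      have := congrArg ZMod.val h
      rw [hval, ZMod.val_zero] at this
      omega
    · intro x hx
      rw [Finset.mem_singleton] at hx ⊢
      subst hx
      rw [ZMod.neg_eq_self_iff, hval]
      right
      omega
  | d + 2, h1, h2 => by
    classical
    have h3 : Even (n * d) := by
      rw [Nat.mul_add] at h2
      have h4 : Even (n * 2) := ⟨n, by ring⟩
      exact (Nat.even_add.1 h2).2 h4
    obtain ⟨S, h0, hS, hc⟩ := exists_symm_set n d (by omega) h3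
    obtain ⟨x, hxS, hx0, hxn⟩ : ∃ x, x ∉ S ∧ x ≠ 0 ∧ -x ≠ x := by
      by_contra hcon
      push Not at hcon
      let T : Finset (ZMod n) := Finset.univ.filter fun x => -x = x ∧ x ≠ 0
      have hT : T.card ≤ 1 := by
        rw [Finset.card_le_one]
        intro a ha b hb
        have ha' : -a = a ∧ a ≠ 0 := by simpa [T] using ha
        have hb' : -b = b ∧ b ≠ 0 := by simpa [T] using hb
        have e1 := (ZMod.neg_eq_self_iff a).1 ha'.1
        have e2 := (ZMod.neg_eq_self_iff b).1 hb'.1
        apply ZMod.val_injective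
        rcases e1 with e1 | e1
        · exact absurd e1 ha'.2
        · rcases e2 with e2 | e2
          · exact absurd e2 hb'.2
          · omega
      have hcov : (Finset.univ : Finset (ZMod n)) ⊆ S ∪ ({0} ∪ T) := by
        intro x _
        by_cases h1 : x ∈ S
        · exact Finset.mem_union_left _ h1
        · by_cases h2 : x = 0
          · simp [h2]
          · have := hcon x h1 h2
            simp [T, this, h2]
      have hcard := Finset.card_le_card hcov
      rw [Finset.card_univ, ZMod.card] at hcard
      have h5 := (Finset.card_union_le S ({0} ∪ T))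
      have h6 := (Finset.card_union_le {0} T)
      rw [Finset.card_singleton] at h6
      omega
    have hnS : -x ∉ S := fun h => hxS (by have := hS _ h; rwa [neg_neg] at this)
    refine ⟨insert x (insert (-x) S), ?_, ?_, ?_⟩
    · rw [Finset.mem_insert, Finset.mem_insert]
      push Not
      exact ⟨hx0.symm, fun h => hx0 (by rwa [eq_comm, neg_eq_zero] at h), h0⟩
    · intro y hy
      rw [Finset.mem_insert, Finset.mem_insert] at hy ⊢
      rcases hy with rfl | rfl | hy
      · right; left; rfl
      · left; rw [neg_neg]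
      · right; right; exact hS y hy
    · rw [Finset.card_insert_of_notMem, Finset.card_insert_of_notMem hnS, hc]
      rw [Finset.mem_insert]
      push Not
      exact ⟨fun h => hxn h.symm, hxS⟩

theorem mem_reg_of_card {n d : ℕ} (G : SimpleGraph (Fin n))
    (h : ∀ v, Nat.card (G.neighborSet v) = d) : G ∈ regularGraphs n d := by
  classical
  refine H490.mem_regularGraphs.2 fun v => ?_
  rw [← h v, Nat.card_eq_fintype_card, ← SimpleGraph.card_neighborSet_eq_degree]

/-- circulant graph of a symmetric set -/
def circ {m : ℕ} (S : Finset (ZMod (m + 1))) (h0 : (0 : ZMod (m + 1)) ∉ S)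
    (hS : ∀ x ∈ S, -x ∈ S) : SimpleGraph (ZMod (m + 1)) where
  Adj i j := j - i ∈ S
  symm := ⟨fun i j h => by
    have := hS _ h
    rwa [neg_sub] at this⟩
  loopless := ⟨fun i h => h0 (by
    have h' : i - i ∈ S := h
    rwa [sub_self] at h')⟩

theorem circ_card {m : ℕ} (S : Finset (ZMod (m + 1))) (h0 : (0 : ZMod (m + 1)) ∉ S)
    (hS : ∀ x ∈ S, -x ∈ S) (v : ZMod (m + 1)) :
    Nat.card ((circ S h0 hS).neighborSet v) = S.card := by
  have e : (circ S h0 hS).neighborSet v ≃ S :=
    { toFun := fun w => ⟨w.1 - v, w.2⟩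
      invFun := fun x => ⟨x.1 + v, by
        change x.1 + v - v ∈ S
        rw [add_sub_cancel_right]
        exact x.2⟩
      left_inv := fun w => Subtype.ext (by simp)
      right_inv := fun x => Subtype.ext (by simp) }
  rw [Nat.card_congr e]
  simp

theorem regularGraphs_nonempty {n d : ℕ} (hd : d < n) (he : Even (n * d)) :
    (regularGraphs n d).Nonempty := by
  obtain ⟨m, rfl⟩ : ∃ m, n = m + 1 := ⟨n - 1, by omega⟩
  obtain ⟨S, h0, hS, hc⟩ := exists_symm_set (m + 1) d hd he
  exact ⟨circ S h0 hS, mem_reg_of_card _ fun v => by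
    rw [← hc]
    exact circ_card S h0 hS v⟩

theorem WW_nonempty {n d : ℕ} (hd : d < n) (he : Even (n * d)) (K : ℕ) : (WW n d K).Nonempty := by
  have h1 : 0 < ((regularGraphs n d).card : ℝ) := by
    exact_mod_cast (regularGraphs_nonempty hd he).card_pos
  have h2 : 0 < ((n * d.factorial : ℕ) : ℝ) := by
    have : 0 < n := by omega
    have := d.factorial_pos
    positivity
  have h3 : 0 < ((WW n d K).card : ℝ) := by
    rw [H490.card_WW]
    positivity
  rw [← Finset.card_pos]
  exact_mod_cast h3

end Vale.Agent.P156.H144
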