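import Vale.Agent.P156.R2.Spec
import Vale.Agent.P156.F.Basic

/-! Small determinants are rare for the COE (no measure theory: averaging over phases). -/

open Matrix Filter Topology Finset

namespace Vale.Agent.P156.H144

/-- only few of the points `w j` can make `det (w j - S)` small -/
theorem card_small_det {K J : ℕ} (w : Fin J → ℂ) (hw : Function.Injective w) :
    ∃ δ > 0, ∀ S : Matrix (Fin K) (Fin K) ℂ,
      (Finset.univ.filter fun j => ‖(w j • (1 : Matrix (Fin K) (Fin K) ℂ) - S).det‖ < δ).card ≤ K := by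
  classical
  -- separation of the points
  obtain ⟨r, hr, hr1, hsep⟩ : ∃ r > 0, r ≤ 1 ∧ ∀ i j, i ≠ j → 2 * r ≤ ‖w i - w j‖ := by
    let P : Finset (Fin J × Fin J) := Finset.univ.filter fun p => p.1 ≠ p.2
    by_cases hP : P.Nonempty
    · obtain ⟨p, hp, hmin⟩ := P.exists_min_image (fun p => ‖w p.1 - w p.2‖) hP
      have hp' : p.1 ≠ p.2 := (Finset.mem_filter.1 hp).2
      have hpos : 0 < ‖w p.1 - w p.2‖ := norm_pos_iff.2 (sub_ne_zero.2 fun h => hp' (hw h))
      refine ⟨min 1 (‖w p.1 - w p.2‖ / 2), lt_min one_pos (by positivity), min_le_left _ _, ?_⟩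
      intro i j hij
      have h1 := hmin (i, j) (by simp [P, hij])
      have h2 := min_le_right 1 (‖w p.1 - w p.2‖ / 2)
      linarith
    · refine ⟨1, one_pos, le_rfl, fun i j hij => ?_⟩
      exact absurd ⟨(i, j), by simp [P, hij]⟩ hP
  refine ⟨r ^ K, by positivity, fun S => ?_⟩
  -- each bad index is close to a root of the characteristic polynomial
  have hroot : ∀ j, ‖(w j • (1 : Matrix (Fin K) (Fin K) ℂ) - S).det‖ < r ^ K →
      ∃ s ∈ S.charpoly.roots, ‖w j - s‖ < r := by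
    intro j hj
    by_contra hcon
    push Not at hcon
    have h1 : (w j • (1 : Matrix (Fin K) (Fin K) ℂ) - S).det = S.charpoly.eval (w j) := by
      rw [Matrix.eval_charpoly]
      congr 1
      ext a b
      simp [Matrix.scalar_apply, Matrix.one_apply, Matrix.diagonal_apply]
    have hs := IsAlgClosed.splits S.charpoly
    rw [h1, hs.eval_eq_prod_roots_of_monic S.charpoly_monic] at hj
    have hcard : Multiset.card S.charpoly.roots = K := by
      rw [← hs.natDegree_eq_card_roots, Matrix.charpoly_natDegree_eq_dim, Fintype.card_fin]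
    have h2 : r ^ K ≤ ‖(S.charpoly.roots.map (w j - ·)).prod‖ := by
      have : ∀ m : Multiset ℂ, (∀ s ∈ m, r ≤ ‖w j - s‖) →
          r ^ (Multiset.card m) ≤ ‖(m.map (w j - ·)).prod‖ := by
        intro m
        induction m using Multiset.induction_on with
        | empty => intro _; simp
        | cons a m ih =>
          intro h
          rw [Multiset.map_cons, Multiset.prod_cons, Multiset.card_cons, norm_mul, pow_succ']
          exact mul_le_mul (h a (Multiset.mem_cons_self a m))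
            (ih fun s hs => h s (Multiset.mem_cons_of_mem hs)) (by positivity) (norm_nonneg _)
      have h3 := this _ hcon
      rwa [hcard] at h3
    exact absurd hj (not_lt.2 h2)
  choose! s hs1 hs2 using hroot
  calc (Finset.univ.filter fun j => ‖(w j • (1 : Matrix (Fin K) (Fin K) ℂ) - S).det‖ < r ^ K).card
      ≤ S.charpoly.roots.toFinset.card := by
        refine Finset.card_le_card_of_injOn s ?_ ?_
        · intro j hj
          have hj' : ‖(w j • (1 : Matrix (Fin K) (Fin K) ℂ) - S).det‖ < r ^ K := by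
            simpa using hj
          simpa using hs1 j hj'
        · intro i hi j hj hij
          by_contra hne
          have hi' : ‖(w i • (1 : Matrix (Fin K) (Fin K) ℂ) - S).det‖ < r ^ K := by
            simpa using hi
          have hj' : ‖(w j • (1 : Matrix (Fin K) (Fin K) ℂ) - S).det‖ < r ^ K := by
            simpa using hj
          have h1 := hs2 i hi'
          have h2 := hs2 j hj'
          rw [← hij] at h2
          have h3 := hsep i j hne
          have h4 : ‖w i - w j‖ ≤ ‖w i - s i‖ + ‖w j - s i‖ := by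
            calc ‖w i - w j‖ = ‖(w i - s i) - (w j - s i)‖ := by congr 1; ring
              _ ≤ _ := norm_sub_le _ _
          linarith
    _ ≤ Multiset.card S.charpoly.roots := Multiset.toFinset_card_le _
    _ ≤ K := by
        refine (Polynomial.card_roots' _).trans ?_
        rw [Matrix.charpoly_natDegree_eq_dim, Fintype.card_fin]

theorem toSymU_coe {ι : Type*} [Fintype ι] [DecidableEq ι] {S : Matrix ι ι ℂ}
    (h : S ∈ Matrix.unitaryGroup ι ℂ ∧ Sᵀ = S) : (toSymU S).1 = S := by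
  unfold toSymU
  rw [dif_pos h]

/-- linear functional facts for `IsCOE` -/
theorem coe_mono {ι : Type*} [Fintype ι] [DecidableEq ι] {c : C(SymU ι, ℝ) → ℝ} (hc : IsCOE c)
    {F G : C(SymU ι, ℝ)} (h : ∀ S, F S ≤ G S) : c F ≤ c G := by
  have h1 := hc.2.2.2.1 (G - F) (fun S => by simpa using h S)
  have h2 := hc.2.1 F (G - F)
  rw [add_sub_cancel] at h2
  linarith

theorem coe_zero {ι : Type*} [Fintype ι] [DecidableEq ι] {c : C(SymU ι, ℝ) → ℝ}
    (hc : IsCOE c) : c 0 = 0 := by
  have := hc.2.1 0 0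
  rw [add_zero] at this
  linarith

theorem coe_sum' {ι α : Type*} [Fintype ι] [DecidableEq ι] {c : C(SymU ι, ℝ) → ℝ}
    (hc : IsCOE c) (s : Finset α) (F : α → C(SymU ι, ℝ)) :
    c (∑ j ∈ s, F j) = ∑ j ∈ s, c (F j) := by
  classical
  induction s using Finset.induction_on with
  | empty => simp [coe_zero hc]
  | insert a s ha ih => rw [Finset.sum_insert ha, Finset.sum_insert ha, hc.2.1, ih]

theorem coe_const {ι : Type*} [Fintype ι] [DecidableEq ι] {c : C(SymU ι, ℝ) → ℝ}
    (hc : IsCOE c) (r : ℝ) : c (ContinuousMap.const _ r) = r := by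
  have h := hc.2.2.1 r 1
  have e : (ContinuousMap.const (SymU ι) r : C(SymU ι, ℝ)) = r • 1 := by
    ext S
    simp
  rw [e, h, hc.1, mul_one]

/-- continuous cut-off of small determinants of `1 - ζ S` -/
noncomputable def detCut (K : ℕ) (ζ : ℂ) (δ : ℝ) : C(SymU (Fin K), ℝ) where
  toFun S := 2 * max 0 (2 - ‖(1 - ζ • S.1).det‖ / δ)
  continuous_toFun := by
    refine continuous_const.mul (continuous_const.max (continuous_const.sub ?_))
    refine Continuous.div_const ?_ _
    refine Continuous.norm ?_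
    refine Continuous.matrix_det ?_
    exact continuous_const.sub (continuous_subtype_val.const_smul ζ)

theorem detCut_nonneg (K : ℕ) (ζ : ℂ) (δ : ℝ) (S : SymU (Fin K)) : 0 ≤ detCut K ζ δ S := by
  change 0 ≤ 2 * max 0 (2 - ‖(1 - ζ • S.1).det‖ / δ)
  have := le_max_left 0 (2 - ‖(1 - ζ • S.1).det‖ / δ)
  linarith

theorem detCut_le (K : ℕ) (ζ : ℂ) {δ : ℝ} (hδ : 0 < δ) (S : SymU (Fin K)) :
    detCut K ζ δ S ≤ 4 := by
  change 2 * max 0 (2 - ‖(1 - ζ • S.1).det‖ / δ) ≤ 4
  have h : 0 ≤ ‖(1 - ζ • S.1).det‖ / δ := by positivity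
  have : max 0 (2 - ‖(1 - ζ • S.1).det‖ / δ) ≤ 2 := max_le (by norm_num) (by linarith)
  linarith

theorem detCut_eq_zero (K : ℕ) (ζ : ℂ) {δ : ℝ} (hδ : 0 < δ) {S : SymU (Fin K)}
    (h : 2 * δ ≤ ‖(1 - ζ • S.1).det‖) : detCut K ζ δ S = 0 := by
  change 2 * max 0 (2 - ‖(1 - ζ • S.1).det‖ / δ) = 0
  have : 2 ≤ ‖(1 - ζ • S.1).det‖ / δ := by rwa [le_div_iff₀ hδ]
  rw [max_eq_left (by linarith), mul_zero]

theorem two_le_detCut (K : ℕ) {δ : ℝ} (hδ : 0 < δ) {S : SymU (Fin K)}
    (h : ‖(1 - S.1).det‖ ≤ δ) : 2 ≤ detCut K 1 δ S := by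
  change 2 ≤ 2 * max 0 (2 - ‖(1 - (1:ℂ) • S.1).det‖ / δ)
  rw [one_smul]
  have : ‖(1 - S.1).det‖ / δ ≤ 1 := by rwa [div_le_one hδ]
  have h2 := le_max_right 0 (2 - ‖(1 - S.1).det‖ / δ)
  linarith

/-- the phases -/
noncomputable def ph (J : ℕ) (j : Fin J) : ℂ := Complex.exp (((j : ℕ) / (J : ℝ) : ℝ) * Complex.I)

theorem ph_norm (J : ℕ) (j : Fin J) : ‖ph J j‖ = 1 := Complex.norm_exp_ofReal_mul_I _

theorem ph_sq_inv_injective (J : ℕ) : Function.Injective fun j : Fin J => ((ph J j)^2)⁻¹ := by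
  intro i j hij
  have h1 : (ph J i)^2 = (ph J j)^2 := inv_injective hij
  rw [ph, ph, ← Complex.exp_nat_mul, ← Complex.exp_nat_mul] at h1
  have hJ : (0:ℝ) < J := by
    have := i.2
    exact_mod_cast (Nat.lt_of_le_of_lt (Nat.zero_le _) this)
  have hb : ∀ k : Fin J, 0 ≤ ((k:ℕ) / (J:ℝ) : ℝ) ∧ ((k:ℕ) / (J:ℝ) : ℝ) < 1 := by
    intro k
    refine ⟨by positivity, ?_⟩
    rw [div_lt_one hJ]
    exact_mod_cast k.2
  have him : ∀ k : Fin J, ((2:ℕ) * ((((k:ℕ) / (J:ℝ) : ℝ) : ℂ) * Complex.I)).im = 2 * ((k:ℕ) / (J:ℝ)) := by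
    intro k
    rw [← mul_assoc, Complex.mul_I_im]
    have : ((2:ℕ) : ℂ) * (((k:ℕ) / (J:ℝ) : ℝ) : ℂ) = ((2 * ((k:ℕ) / (J:ℝ)) : ℝ) : ℂ) := by
      push_cast; ring
    rw [this, Complex.ofReal_re]
  have hpi := Real.pi_gt_three
  have h2 := Complex.exp_inj_of_neg_pi_lt_of_le_pi
    (by rw [him]; linarith [(hb i).1]) (by rw [him]; linarith [(hb i).2])
    (by rw [him]; linarith [(hb j).1]) (by rw [him]; linarith [(hb j).2]) h1
  have h3 := congrArg Complex.im h2
  rw [him, him] at h3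
  have h4 : ((i:ℕ):ℝ) = (j:ℕ) := by
    field_simp at h3
    linarith
  exact Fin.ext (by exact_mod_cast h4)

theorem smul_one_mem_unitary {K : ℕ} {z : ℂ} (hz : ‖z‖ = 1) :
    z • (1 : Matrix (Fin K) (Fin K) ℂ) ∈ Matrix.unitaryGroup (Fin K) ℂ := by
  rw [Matrix.mem_unitaryGroup_iff, star_smul, star_one, smul_mul_smul_comm, mul_one]
  have : z * star z = 1 := by
    rw [Complex.star_def, Complex.mul_conj, Complex.normSq_eq_norm_sq, hz]; simp
  rw [this, one_smul]

theorem conjSymU_phase {K : ℕ} {z : ℂ} (hz : ‖z‖ = 1) (S : SymU (Fin K)) :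
    (conjSymU (z • (1 : Matrix (Fin K) (Fin K) ℂ)) S).1 = z^2 • S.1 := by
  have e : z • (1 : Matrix (Fin K) (Fin K) ℂ) * S.1 * (z • (1 : Matrix (Fin K) (Fin K) ℂ))ᵀ
      = z^2 • S.1 := by
    rw [transpose_smul, transpose_one, smul_mul_assoc, one_mul, mul_smul_comm, mul_one, smul_smul, sq]
  unfold conjSymU
  rw [e, toSymU_coe]
  constructor
  · have h1 : z^2 • S.1 = (z^2 • (1 : Matrix (Fin K) (Fin K) ℂ)) * S.1 := by
      rw [smul_mul_assoc, one_mul]
    rw [h1]
    exact mul_mem (smul_one_mem_unitary (by rw [norm_pow, hz, one_pow])) S.2.1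
  · rw [transpose_smul, S.2.2]

/-- the COE gives little mass to `{|det (1 - S)| small}`, uniformly over all COE functionals -/
theorem exists_detCut (K : ℕ) {ε : ℝ} (hε : 0 < ε) :
    ∃ δ > 0, ∀ c : C(SymU (Fin K), ℝ) → ℝ, IsCOE c → c (detCut K 1 δ) ≤ ε := by
  classical
  obtain ⟨J, hJ⟩ := exists_nat_gt (4 * K / ε)
  have hJ0 : 0 < J := by
    have : (0:ℝ) ≤ 4 * K / ε := by positivity
    exact_mod_cast lt_of_le_of_lt this hJ
  have hJr : (0:ℝ) < J := by exact_mod_cast hJ0
  obtain ⟨δ', hδ', hcard⟩ := card_small_det (K := K) (fun j : Fin J => ((ph J j)^2)⁻¹)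
    (ph_sq_inv_injective J)
  refine ⟨δ' / 2, by positivity, fun c hc => ?_⟩
  set δ := δ' / 2 with hδ
  have hδpos : 0 < δ := by positivity
  have hdet : ∀ (j : Fin J) (S : SymU (Fin K)), ‖(1 - (ph J j)^2 • S.1).det‖
      = ‖(((ph J j)^2)⁻¹ • (1 : Matrix (Fin K) (Fin K) ℂ) - S.1).det‖ := by
    intro j S
    have hne : (ph J j)^2 ≠ 0 := by
      intro h
      have := congrArg norm h
      rw [norm_pow, ph_norm] at this
      simp at this
    have : (1 - (ph J j)^2 • S.1) = (ph J j)^2 • (((ph J j)^2)⁻¹ • (1 : Matrix (Fin K) (Fin K) ℂ) - S.1) := by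
      rw [smul_sub, smul_smul, mul_inv_cancel₀ hne, one_smul]
    rw [this, Matrix.det_smul, norm_mul, norm_pow, norm_pow, ph_norm]
    simp
  have hinv : ∀ j : Fin J, c (detCut K ((ph J j)^2) δ) = c (detCut K 1 δ) := by
    intro j
    refine hc.2.2.2.2 _ (smul_one_mem_unitary (ph_norm J j)) _ _ fun S => ?_
    change 2 * max 0 (2 - ‖(1 - (ph J j)^2 • S.1).det‖ / δ)
      = 2 * max 0 (2 - ‖(1 - (1:ℂ) • (conjSymU (ph J j • (1 : Matrix (Fin K) (Fin K) ℂ)) S).1).det‖ / δ)
    rw [one_smul, conjSymU_phase (ph_norm J j)]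
  have hsum : c (∑ j : Fin J, detCut K ((ph J j)^2) δ) = J * c (detCut K 1 δ) := by
    rw [coe_sum' hc, Finset.sum_congr rfl fun j _ => hinv j]
    simp
  have hle : c (∑ j : Fin J, detCut K ((ph J j)^2) δ) ≤ 4 * K := by
    rw [← coe_const hc (4 * K)]
    refine coe_mono hc fun S => ?_
    rw [ContinuousMap.coe_sum, Finset.sum_apply]
    change ∑ j : Fin J, detCut K ((ph J j)^2) δ S ≤ 4 * K
    calc ∑ j : Fin J, detCut K ((ph J j)^2) δ S
        ≤ ∑ j : Fin J, if ‖(((ph J j)^2)⁻¹ • (1 : Matrix (Fin K) (Fin K) ℂ) - S.1).det‖ < δ'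
            then (4:ℝ) else 0 := by
          refine Finset.sum_le_sum fun j _ => ?_
          split_ifs with h
          · exact detCut_le K _ hδpos S
          · refine le_of_eq (detCut_eq_zero K _ hδpos ?_)
            rw [hdet, hδ]
            linarith [not_lt.1 h]
      _ = 4 * ((Finset.univ.filter fun j : Fin J =>
            ‖(((ph J j)^2)⁻¹ • (1 : Matrix (Fin K) (Fin K) ℂ) - S.1).det‖ < δ').card : ℝ) := by
          rw [Finset.sum_ite, Finset.sum_const_zero, add_zero, Finset.sum_const, nsmul_eq_mul, mul_comm]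
      _ ≤ 4 * K := by
          have := hcard S.1
          have h' : ((Finset.univ.filter fun j : Fin J =>
            ‖(((ph J j)^2)⁻¹ • (1 : Matrix (Fin K) (Fin K) ℂ) - S.1).det‖ < δ').card : ℝ) ≤ K := by
            exact_mod_cast this
          linarith
  rw [hsum] at hle
  rw [div_lt_iff₀ hε] at hJ
  by_contra hcon
  push Not at hcon
  have : J * ε < J * c (detCut K 1 δ) := mul_lt_mul_of_pos_left hcon hJr
  linarith

end Vale.Agent.P156.H144
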