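import Vale.Agent.P156.H144.Rot
import Vale.Agent.P156.H9.Cay2

/-! Sandwich: bounded continuous functions of the real symmetric matrix `C` against continuous
functions of its Cayley transform. -/

open Matrix Filter Topology Finset

namespace Vale.Agent.P156.H144

variable {K : ℕ}

/-- the point of `SymU` attached to a real symmetric matrix -/
noncomputable def ptS (C : Matrix (Fin K) (Fin K) ℝ) : SymU (Fin K) :=
  toSymU (cay Complex.I (C.map Complex.ofReal))

theorem cay_I_eq (A : Matrix (Fin K) (Fin K) ℂ) : cay Complex.I A = H9.cay A := by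
  unfold cay H9.cay H9.mI H9.rI H9.pI
  rw [Complex.conj_I, neg_smul, sub_neg_eq_add]

theorem cxH {C : Matrix (Fin K) (Fin K) ℝ} (hC : Cᵀ = C) : (C.map Complex.ofReal).IsHermitian := by
  ext i j
  have h := congrFun (congrFun hC i) j
  simp only [conjTranspose_apply, map_apply, Complex.star_def, Complex.conj_ofReal]
  rw [transpose_apply] at h
  rw [h]

theorem cxT {C : Matrix (Fin K) (Fin K) ℝ} (hC : Cᵀ = C) :
    (C.map Complex.ofReal)ᵀ = C.map Complex.ofReal := by
  rw [← transpose_map, hC]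

theorem ptS_coe {C : Matrix (Fin K) (Fin K) ℝ} (hC : Cᵀ = C) :
    (ptS C).1 = H9.cay (C.map Complex.ofReal) := by
  unfold ptS
  rw [cay_I_eq, toSymU_coe ⟨H9.cay_mem_unitary (cxH hC), H9.cay_transpose (cxH hC) (cxT hC)⟩]

theorem norm_adjugate_le (M : Matrix (Fin K) (Fin K) ℂ) (h : ∀ i j, ‖M i j‖ ≤ 2) (a b : Fin K) :
    ‖M.adjugate a b‖ ≤ K.factorial * 2 ^ K := by
  rw [Matrix.adjugate_apply]
  have := Matrix.det_le (A := M.updateRow b (Pi.single a 1))
    (abv := NormedField.toAbsoluteValue ℂ) (x := (2:ℝ)) (fun i j => by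
      change ‖M.updateRow b (Pi.single a 1) i j‖ ≤ 2
      rw [Matrix.updateRow_apply]
      split_ifs with h1
      · rw [Pi.single_apply]
        split_ifs
        · simp
        · simp
      · exact h i j)
  rw [Fintype.card_fin, nsmul_eq_mul] at this
  exact this

theorem det_bound {C : Matrix (Fin K) (Fin K) ℝ} (hC : Cᵀ = C) (a b : Fin K) :
    ‖(1 - (ptS C).1).det‖ * |C a b| ≤ 2 * (K.factorial * 2 ^ K) := by
  set A := C.map Complex.ofReal with hAdef
  have hA : A.IsHermitian := cxH hC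
  have h1 : (1 - (ptS C).1) * H9.pI A = (2 * Complex.I) • 1 := by
    rw [ptS_coe hC, sub_mul, one_mul, H9.cay_mul_pI hA, H9.pI_sub_mI]
  have h2 : (1 - (ptS C).1).det • H9.pI A = (2 * Complex.I) • (1 - (ptS C).1).adjugate := by
    calc (1 - (ptS C).1).det • H9.pI A
        = ((1 - (ptS C).1).adjugate * (1 - (ptS C).1)) * H9.pI A := by
          rw [adjugate_mul, smul_mul_assoc, one_mul]
      _ = _ := by rw [mul_assoc, h1, mul_smul_comm, mul_one]
  have h3 := congrArg norm (congrFun (congrFun h2 a) b)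
  rw [Matrix.smul_apply, Matrix.smul_apply, norm_smul, norm_smul] at h3
  have h4 : ‖(2 * Complex.I : ℂ)‖ = 2 := by simp
  rw [h4] at h3
  have h5 : |C a b| ≤ ‖H9.pI A a b‖ := by
    have : (H9.pI A a b).re = C a b := by
      unfold H9.pI
      rw [Matrix.add_apply, Matrix.smul_apply, Matrix.one_apply]
      split_ifs <;> simp [hAdef]
    rw [← this]
    exact Complex.abs_re_le_norm _
  have h6 : ‖(1 - (ptS C).1).adjugate a b‖ ≤ K.factorial * 2 ^ K := by
    apply norm_adjugate_le
    intro i j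
    rw [Matrix.sub_apply]
    refine (norm_sub_le _ _).trans ?_
    have e1 : ‖(1 : Matrix (Fin K) (Fin K) ℂ) i j‖ ≤ 1 := by
      rw [Matrix.one_apply]; split_ifs <;> simp
    have e2 : ‖(ptS C).1 i j‖ ≤ 1 := entry_norm_bound_of_unitary (ptS C).2.1 i j
    linarith
  calc ‖(1 - (ptS C).1).det‖ * |C a b| ≤ ‖(1 - (ptS C).1).det‖ * ‖H9.pI A a b‖ :=
        mul_le_mul_of_nonneg_left h5 (norm_nonneg _)
    _ = 2 * ‖(1 - (ptS C).1).adjugate a b‖ := h3
    _ ≤ _ := by linarith

/-- bounded symmetric matrices -/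
abbrev BS (K : ℕ) (B : ℝ) : Type :=
  {C : Matrix (Fin K) (Fin K) ℝ // Cᵀ = C ∧ ∀ a b, |C a b| ≤ B}

theorem isCompact_BS (K : ℕ) (B : ℝ) :
    IsCompact {C : Matrix (Fin K) (Fin K) ℝ | Cᵀ = C ∧ ∀ a b, |C a b| ≤ B} := by
  have hK : IsCompact (Set.pi Set.univ
      (fun _ : Fin K => Set.pi Set.univ (fun _ : Fin K => Set.Icc (-B) B))) :=
    isCompact_univ_pi fun _ => isCompact_univ_pi fun _ => isCompact_Icc
  refine IsCompact.of_isClosed_subset hK ?_ ?_
  · have e : {C : Matrix (Fin K) (Fin K) ℝ | Cᵀ = C ∧ ∀ a b, |C a b| ≤ B}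
        = {C | Cᵀ = C} ∩ ⋂ a, ⋂ b, {C : Matrix (Fin K) (Fin K) ℝ | |C a b| ≤ B} := by
      ext C; simp
    rw [e]
    refine IsClosed.inter (isClosed_eq continuous_id.matrix_transpose continuous_id) ?_
    refine isClosed_iInter fun a => isClosed_iInter fun b => isClosed_le ?_ continuous_const
    exact (continuous_id.matrix_elem a b).abs
  · intro C hC i _ j _
    exact abs_le.1 (hC.2 i j)

instance (B : ℝ) : CompactSpace (BS K B) := isCompact_iff_compactSpace.mp (isCompact_BS K B)

theorem isClosed_symU' : IsClosed {S : Matrix (Fin K) (Fin K) ℂ | S ∈ unitaryGroup (Fin K) ℂ ∧ Sᵀ = S} :=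
  F.isClosed_symU

instance : CompactSpace (SymU (Fin K)) :=
  isCompact_iff_compactSpace.mp (F.isCompact_symU (ι := Fin K))

theorem continuous_ptS (B : ℝ) : Continuous (fun C : BS K B => ptS C.1) := by
  rw [continuous_induced_rng]
  have e : (Subtype.val ∘ fun C : BS K B => ptS C.1)
      = fun C : BS K B => H9.cay (C.1.map Complex.ofReal) := by
    funext C
    exact ptS_coe C.2.1
  rw [e]
  rw [continuous_iff_continuousAt]
  intro C₀
  refine tendsto_pi_nhds.2 fun i => tendsto_pi_nhds.2 fun j => ?_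
  rw [tendsto_iff_norm_sub_tendsto_zero]
  have hsum : Tendsto (fun C : BS K B => 2 * (Fintype.card (Fin K) : ℝ) ^ 2 *
      ∑ a, ∑ b, |C.1 a b - C₀.1 a b|) (𝓝 C₀) (𝓝 0) := by
    have hc : Continuous (fun C : BS K B => 2 * (Fintype.card (Fin K) : ℝ) ^ 2 *
      ∑ a, ∑ b, |C.1 a b - C₀.1 a b|) := by
      refine continuous_const.mul (continuous_finset_sum _ fun a _ =>
        continuous_finset_sum _ fun b _ => ?_)
      exact ((continuous_subtype_val.matrix_elem a b).sub continuous_const).abs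
    have := hc.tendsto C₀
    simpa using this
  refine squeeze_zero (fun _ => norm_nonneg _) (fun C => ?_) hsum
  refine H9.norm_cay_sub_le (cxH C₀.2.1) (cxH C.2.1) (fun a b => ?_) i j
  have h1 : ‖(C.1.map Complex.ofReal) a b - (C₀.1.map Complex.ofReal) a b‖
      = |C.1 a b - C₀.1 a b| := by
    rw [map_apply, map_apply, ← Complex.ofReal_sub]
    exact Complex.norm_real _
  rw [h1]
  refine (Finset.single_le_sum (f := fun b => |C.1 a b - C₀.1 a b|)
    (fun _ _ => abs_nonneg _) (Finset.mem_univ b)).trans ?_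
  exact Finset.single_le_sum (f := fun a => ∑ b, |C.1 a b - C₀.1 a b|)
    (fun _ _ => Finset.sum_nonneg fun _ _ => abs_nonneg _) (Finset.mem_univ a)

theorem ptS_injective {C C' : Matrix (Fin K) (Fin K) ℝ} (hC : Cᵀ = C) (hC' : C'ᵀ = C')
    (h : ptS C = ptS C') : C = C' := by
  have h1 := congrArg Subtype.val h
  rw [ptS_coe hC, ptS_coe hC', H9.cay_eq (cxH hC), H9.cay_eq (cxH hC')] at h1
  have h2 : (2 * Complex.I) • H9.rI (C.map Complex.ofReal)
      = (2 * Complex.I) • H9.rI (C'.map Complex.ofReal) := by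
    have := congrArg (fun M => 1 - M) h1
    simpa using this
  have hne : (2 * Complex.I : ℂ) ≠ 0 := by simp
  have h3 : H9.rI (C.map Complex.ofReal) = H9.rI (C'.map Complex.ofReal) :=
    smul_right_injective _ hne h2
  have h4 : H9.pI (C.map Complex.ofReal) = H9.pI (C'.map Complex.ofReal) := by
    calc H9.pI (C.map Complex.ofReal)
        = H9.pI (C.map Complex.ofReal) * (H9.rI (C'.map Complex.ofReal)
            * H9.pI (C'.map Complex.ofReal)) := by
          rw [H9.rI_mul_pI (cxH hC'), mul_one]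
      _ = _ := by rw [← h3, ← mul_assoc, H9.pI_mul_rI (cxH hC), one_mul]
  ext a b
  have h5 := congrFun (congrFun h4 a) b
  unfold H9.pI at h5
  rw [Matrix.add_apply, Matrix.add_apply] at h5
  have h6 := add_right_cancel h5
  rw [map_apply, map_apply] at h6
  exact_mod_cast h6

/-- the sandwich: a bounded continuous function of the real symmetric matrix is a continuous
function of the Cayley transform up to an error that the COE makes small -/
theorem sandwich (K : ℕ) (F : Matrix (Fin K) (Fin K) ℝ → ℝ) (hF : Continuous F)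
    (hb : ∀ C, |F C| ≤ 1) {ε : ℝ} (hε : 0 < ε) :
    ∃ F' χ : C(SymU (Fin K), ℝ), (∀ S, 0 ≤ χ S) ∧ (∀ c, IsCOE c → c χ ≤ ε) ∧
      ∀ C : Matrix (Fin K) (Fin K) ℝ, Cᵀ = C → |F C - F' (ptS C)| ≤ χ (ptS C) := by
  obtain ⟨δ, hδ, hcut⟩ := exists_detCut K hε
  set D : ℝ := 2 * (K.factorial * 2 ^ K) with hD
  have hDpos : 0 < D := by positivity
  set B : ℝ := D / δ with hB
  let f : BoundedContinuousFunction (BS K B) ℝ :=
    BoundedContinuousFunction.mkOfCompact ⟨fun C => F C.1, hF.comp continuous_subtype_val⟩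
  have he : Topology.IsClosedEmbedding (fun C : BS K B => ptS C.1) :=
    Continuous.isClosedEmbedding (continuous_ptS B) fun C C' h =>
      Subtype.ext (ptS_injective C.2.1 C'.2.1 h)
  obtain ⟨g, hg1, hg2⟩ := BoundedContinuousFunction.exists_extension_forall_mem_of_isClosedEmbedding
    f (t := Set.Icc (-1:ℝ) 1) (fun C => abs_le.1 (hb C.1)) ⟨0, by norm_num, by norm_num⟩ he
  refine ⟨g.toContinuousMap, detCut K 1 δ, detCut_nonneg K 1 δ, fun c hc => hcut c hc, ?_⟩
  intro C hC
  by_cases h : ∀ a b, |C a b| ≤ B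
  · have := congrFun hg2 ⟨C, hC, h⟩
    have h' : g (ptS C) = F C := this
    change |F C - g (ptS C)| ≤ _
    rw [h', sub_self, abs_zero]
    exact detCut_nonneg K 1 δ _
  · push Not at h
    obtain ⟨a, b, hab⟩ := h
    have h1 := det_bound hC a b
    have hBpos : 0 < B := by positivity
    have h2 : ‖(1 - (ptS C).1).det‖ ≤ δ := by
      by_contra hcon
      push Not at hcon
      have : D < ‖(1 - (ptS C).1).det‖ * |C a b| := by
        calc D = δ * B := by rw [hB]; field_simp
          _ < ‖(1 - (ptS C).1).det‖ * |C a b| := by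
            apply mul_lt_mul hcon hab.le hBpos (norm_nonneg _)
      linarith
    have h3 := two_le_detCut K hδ h2
    have h4 : |g (ptS C)| ≤ 1 := abs_le.2 (hg1 _)
    change |F C - g (ptS C)| ≤ _
    calc |F C - g (ptS C)| ≤ |F C| + |g (ptS C)| := abs_sub _ _
      _ ≤ 2 := by linarith [hb C]
      _ ≤ _ := h3

end Vale.Agent.P156.H144
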